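import Vale.Agent.P280Z.Po.Defs
import Vale.Agent.P281Z.Mf.Fib
import Vale.Agent.P281Z.Sc.Bd
import Mathlib.Geometry.Manifold.Complex

/-!
# P280Z, block Po: the row DESC
-/

open scoped Manifold ContDiff Topology Matrix
open Set Filter
open Vale.Agent.P272.K Vale.Agent.P285.H281.FD Vale.Agent.P281Z
open Vale.Agent.P277Z (Hol at_chart)
open Vale.Agent.P277.HD (pull)

noncomputable section

namespace Vale.Agent.P280Z.Po

theorem DescH.const {n : ℕ} {V : Mf n} {a : V.X → ℂ} [PreconnectedSpace V.X]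
    (h : ∀ x, Hol n a x) : ∃ c, ∀ x, a x = c := by
  obtain ⟨c, hc⟩ := MDifferentiable.exists_eq_const_of_compactSpace (I := 𝓘(ℂ, Cm n)) (f := a)
    fun x => by
      have he := at_chart (n := n) x
      have h1 := ContMDiffAt.comp x (g := fun z => a ((chartAt (Cm n) x).symm z))
        (contMDiffAt_iff_contDiffAt.2 (h x _ he).contDiffAt) (chart_contMDiffAt he)
      exact (h1.congr_of_eventuallyEq ((at_near he).mono fun y hy =>
        (congrArg a hy.left_inv).symm)).mdifferentiableAt (by simp)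
  exact ⟨c, congrFun hc⟩

theorem desc : DESC := fun {u n} U V e M he hc hM t ht => by
  choose σ hσ using fun x => (hc x).nonempty
  have h1 : ∀ a x, e x ∈ M.U a → t a (σ (e x)) = t a x := fun a x ha => by
    obtain ⟨F, i, hi⟩ := fib_emb (d := u - n) (y := e x)
      (Nat.add_sub_cancel' (he.sbm x).le).symm he.hol fun z _ => he.sbm z
    have := hi.conn.2 (hc _)
    obtain ⟨c, k⟩ := DescH.const (a := fun z => t a (i z)) fun z =>
      hi.hol.hol (sec_hol ht (show e (i z) ∈ M.U a from (hi.fib z).symm ▸ ha))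
    obtain ⟨z, hz⟩ := hi.rng.ge (hσ (e x))
    obtain ⟨z', hz'⟩ := hi.rng.ge (show x ∈ e ⁻¹' {e x} from rfl)
    rw [← hz, k z, ← k z', hz']
  refine ⟨fun a x => t a (σ x), isSec_of (fun a x ha => ?_) fun a b x ha hb => ?_, h1⟩
  · obtain ⟨y, rfl⟩ : ∃ y, e y = x := ⟨_, hσ x⟩
    refine (he.sbm y).hol_desc (he.hol.at y) ((sec_hol ht (a := a) ha).congr ?_)
    exact (he.hol.cont.continuousAt.eventually (lb_near hM ha)).mono fun z k => (h1 a z k).symm
  · have k : e (σ x) = x := hσ x
    exact (ht.change a b (σ x) (k.symm ▸ ha : e (σ x) ∈ _) (k.symm ▸ hb : e (σ x) ∈ _)).trans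
      (congrArg (fun y => M.g a b y * t b (σ x)) k)

end Vale.Agent.P280Z.Po
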