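import Vale.Agent.P280Z.Po.Defs
import Vale.Agent.P280Z.En.Fld

/-!
# P280Z, row ETG: unramified maps to a product
-/

open scoped Manifold ContDiff Topology Matrix
open Set Filter Function
open Vale.Agent.P272.K Vale.Agent.P285.H281.FD Vale.Agent.P281Z
open Vale.Agent.P277Z (at_chart)
open Vale.Agent.P280Z.Gp (Gen IsField)

noncomputable section

namespace Vale.Agent.P280Z.Po

namespace EtgH

variable {n y d : ℕ} {V : Mf n} {Y : Mf y} {M : Mf d} {π : V.X → Y.X} {μ : V.X → M.X} {x : V.X}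
  {e e₁ : Chart n V.X} {f : Chart y Y.X} {g : Chart d M.X} {ξ : Chart y Y.X → Cm y → Cm y}
  {v : Cm n}

variable (π ξ e x v) in
/-- `v` is mapped to the value of the field `ξ` -/
def Rl : Prop := ∀ f : Chart y Y.X, At f (π x) → df π e f x v = ξ f (f (π x))

theorem Rl.of (hξ : IsField y ξ) (hπ : HolM n y π) (he : At e x) (hf : At f (π x))
    (h : df π e f x v = ξ f (f (π x))) : Rl π x e ξ v := fun f' hf' => by
  rw [← dfM_mulVec, dfM_chg' (hπ.at x) he hf hf', ← Matrix.mulVec_mulVec, dfM_mulVec, h,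
    hξ.change f f' _ hf hf']

theorem Rl.chart (hπ : HolM n y π) (he : At e x) (he₁ : At e₁ x) (h : Rl π x e ξ v) :
    Rl π x e₁ ξ (jacM e e₁ x *ᵥ v) := fun f hf => by
  rw [← dfM_mulVec, Matrix.mulVec_mulVec, ← dfM_chg (hπ.at x) he₁ he hf, dfM_mulVec, h f hf]

theorem ker (hπ : HolM n y π) (he : At e x) (hf : At f (π x)) (h : df π e f x v = 0) :
    Df n y π x (P277Z.Slc.tr (chartAt (Cm n) x) e x v) = 0 := by
  rw [df_chart (hπ.at x) (at_chart x) he (at_chart _) hf] at h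
  exact (injective_iff_map_eq_zero _).1 (tr_inj hf (at_chart _)) _ h

variable (π μ e f g) in
/-- the differential of the map to the product -/
def Φ (z : Cm n) : Cm n →L[ℂ] Cm y × Cm d :=
  fderiv ℂ (fun z => (f (π (e.symm z)), g (μ (e.symm z)))) z

theorem Φ_eq (hπ : HolM n y π) (hμ : HolM n d μ) (he : At e x) (hf : At f (π x))
    (hg : At g (μ x)) (v : Cm n) : Φ π μ e f g (e x) v = (df π e f x v, df μ e g x v) := by
  rw [Φ, DifferentiableAt.fderiv_prodMk ((hπ.at x).an he hf).differentiableAt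
    ((hμ.at x).an he hg).differentiableAt]
  rfl

theorem Φ_inj (hπ : HolM n y π) (hμ : HolM n d μ)
    (h : ∀ x w, Df n y π x w = 0 → Df n d μ x w = 0 → w = 0) (he : At e x) (hf : At f (π x))
    (hg : At g (μ x)) : Injective (Φ π μ e f g (e x)) :=
  (injective_iff_map_eq_zero _).2 fun v k => by
    rw [Φ_eq hπ hμ he hf hg, Prod.mk_eq_zero] at k
    exact (injective_iff_map_eq_zero _).1 (tr_inj (at_chart x) he) _
      (h x _ (ker hπ he hf k.1) (ker hμ he hg k.2))

end EtgH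

open EtgH in
/-- **row ETG** -/
theorem etg : ETG := by
  intro n y d V Y M π μ hn hπ hμ h gY gM e₀ x₀ he₀ v
  obtain ⟨ξ, h1, h2⟩ := gY _ _ (at_chart (π x₀)) (df π e₀ (chartAt (Cm y) (π x₀)) x₀ v)
  obtain ⟨ζ, h3, h4⟩ := gM _ _ (at_chart (μ x₀)) (df μ e₀ (chartAt (Cm d) (μ x₀)) x₀ v)
  have un : ∀ {e : Chart n V.X} {x v v'}, At e x → Rl π x e ξ v ∧ Rl μ x e ζ v →
      Rl π x e ξ v' ∧ Rl μ x e ζ v' → v = v' := fun {e x v v'} he k k' =>
    Φ_inj hπ hμ h he (at_chart _) (at_chart _) (by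
      rw [Φ_eq hπ hμ he (at_chart _) (at_chart _), Φ_eq hπ hμ he (at_chart _) (at_chart _),
        k.1 _ (at_chart _), k.2 _ (at_chart _), k'.1 _ (at_chart _), k'.2 _ (at_chart _)])
  let η (e : Chart n V.X) (z : Cm n) : Cm n :=
    Classical.epsilon fun v => Rl π (e.symm z) e ξ v ∧ Rl μ (e.symm z) e ζ v
  have sp : ∀ (e : Chart n V.X) x, At e x → Rl π x e ξ (η e (e x)) ∧ Rl μ x e ζ (η e (e x)) :=
    fun e x he => by
      simp only [η, e.left_inv he.2]
      refine Classical.epsilon_spec (p := fun v => Rl π x e ξ v ∧ Rl μ x e ζ v) ?_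
      obtain ⟨w, hw⟩ := (LinearMap.injective_iff_surjective_of_finrank_eq_finrank
        (f := (Φ π μ e (chartAt (Cm y) (π x)) (chartAt (Cm d) (μ x)) (e x)).toLinearMap)
        (by simp [hn])).1 (Φ_inj hπ hμ h he (at_chart _) (at_chart _))
        (ξ _ (chartAt (Cm y) (π x) (π x)), ζ _ (chartAt (Cm d) (μ x) (μ x)))
      have k := Prod.ext_iff.1 ((Φ_eq hπ hμ he (at_chart _) (at_chart _) w).symm.trans hw)
      exact ⟨w, .of h1 hπ he (at_chart _) k.1, .of h3 hμ he (at_chart _) k.2⟩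
  refine ⟨η, ⟨fun e x he => ?_, fun e e' x he he' => un he' (sp e' x he')
    ⟨(sp e x he).1.chart hπ he he', (sp e x he).2.chart hμ he he'⟩⟩,
    un he₀ (sp _ _ he₀) ⟨.of h1 hπ he₀ (at_chart _) h2.symm, .of h3 hμ he₀ (at_chart _) h4.symm⟩⟩
  have hf := at_chart (n := y) (π x)
  have hg := at_chart (n := d) (μ x)
  have a1 := (hπ.at x).an he hf
  have a2 := (hμ.at x).an he hg
  refine En.Fld.an_sol (P := Φ π μ e _ _) (a1.prod a2).fderiv (Φ_inj hπ hμ h he hf hg)
    (((h1.holo _ _ hf).comp_of_eq a1 (by rw [he.left_inv])).prod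
      ((h3.holo _ _ hg).comp_of_eq a2 (by rw [he.left_inv]))) ?_
  filter_upwards [at_ev he (at_near he), at_map hπ.cont.continuousAt he hf,
    at_map hμ.cont.continuousAt he hg, he.nhds_target] with z k1 k2 k3 k4
  have k := Φ_eq hπ hμ k1 k2 k3 (η e (e (e.symm z)))
  rw [(sp e _ k1).1 _ k2, (sp e _ k1).2 _ k3, e.right_inv k4] at k
  exact k

end Vale.Agent.P280Z.Po
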