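import Vale.Agent.P280Z.Nf
import Vale.Agent.P280Z.Co.Defs
import Vale.Agent.P280Z.Gp.Defs

/-!
# P280Z, block Po: the statement of the row VERT
-/

open Vale.Agent.P272.K Vale.Agent.P285.H281.FD Vale.Agent.P281Z
open Vale.Agent.P277 (Bd.inv)
open Vale.Agent.P277.HD (pull)

noncomputable section

namespace Vale.Agent.P280Z.Po

section
variable (n y : ℕ) {X Y : Type} [TopologicalSpace X] [ChartedSpace (Cm n) X] [TopologicalSpace Y]
  [ChartedSpace (Cm y) Y]

/-- the relative anticanonical bundle -/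
def Lam (π : X → Y) : Bd X := (Bd.inv (Bd.can n X)).mul (pull π (Bd.can y Y))

/-- all vector fields lift -/
def Lf (π : X → Y) : Prop := ∀ ξ : Chart y Y → Cm y → Cm y, Gp.IsField y ξ →
  ∃ ζ : Chart n X → Cm n → Cm n, Gp.IsField n ζ ∧ ∀ x (e : Chart n X) (e' : Chart y Y), At e x →
    At e' (π x) → df π e e' x (ζ e (e x)) = ξ e' (e' (π x))

end

/-- row VERT: the vertical direction -/
def VERT : Prop := ∀ {n y : ℕ} (V : Mf n) (Y : Mf y) (π : V.X → Y.X), Sub n y π → n = y + 1 →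
  PreconnectedSpace V.X → Lf n y π → Gp.Gen y Y.X → Gp.Gen n V.X ∨
    (∀ (C : Mf 1) (f : C.X → V.X), HolM 1 n f → ∃ α, QuoC n f (pull f (Lam n y π)) α) ∨
    ∃ (Z : Mf y) (i : Z.X → V.X) (L : Bd V.X) (s : L.ι → V.X → ℂ), Cut L s i ∧ Nonempty Z.X ∧
      Sub y y fun z => π (i z)

end Vale.Agent.P280Z.Po
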