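import Vale.Agent.P280Z.Rh.Sk
import Vale.Agent.P280Z.Rh.Api
import Vale.Agent.P280Z.Po.VertD

/-!
# P280Z, block Po: one of the families is a bundle of projective lines (definitions, rows)
-/

open scoped Manifold ContDiff Topology Matrix
open Set Filter
open Vale.Agent.P272.K Vale.Agent.P285.H281.FD Vale.Agent.P281Z
open Vale.Agent.P277Z (Hol)
open Vale.Agent.P277.HD (pull)
open Vale.Agent.P280Z.Rh (Fm Bas cX)
open Vale.Agent.P280Z.Gp (Gen)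

noncomputable section

namespace Vale.Agent.P280Z.Po

section defs
variable (n y : ℕ) {X Y : Type} [TopologicalSpace X] [ChartedSpace (Cm n) X] [TopologicalSpace Y]
  [ChartedSpace (Cm y) Y]

/-- `v` is a section without zeros of `T_X ⊗ Λ⁻¹` which spans the kernel of `dπ` -/
structure Vg (π : X → Y) (Λ : Bd X) (v : Λ.ι → Chart n X → X → Cm n) : Prop where
  lb : IsLB n Λ
  hol : ∀ a e x, x ∈ Λ.U a → At e x → ∀ k, Hol n (fun x' => v a e x' k) x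
  nz : ∀ a e x, x ∈ Λ.U a → At e x → v a e x ≠ 0
  chg : ∀ a b e e' x, x ∈ Λ.U a → x ∈ Λ.U b → At e x → At e' x →
    v b e' x = Λ.g a b x • (jacM e e' x *ᵥ v a e x)
  ker : ∀ a e x (e' : Chart y Y), x ∈ Λ.U a → At e x → At e' (π x) → ∀ w,
    df π e e' x w = 0 ↔ ∃ c : ℂ, w = c • v a e x

variable (X) in
/-- there is a positive line bundle -/
def Prj : Prop := ∃ A : Bd X, IsLB n A ∧ Pos n A

end defs

/-- sections of `M` extend from hypersurfaces of class `c1 M - l` -/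
def Ex1 (T : CT) {n : ℕ} (V : Mf n) (l : T.H V) : Prop :=
  ∀ {m : ℕ} (Z : Mf m) (A : Bd V.X) (σ : A.ι → V.X → ℂ) (i : Z.X → V.X), Cut A σ i →
    ∀ M : Bd V.X, IsLB n M → T.c1 V M - T.c1 V A = l → ∀ u, IsSec m (pull i M) u →
      ∃ s, IsSec n M s ∧ ∀ a z, i z ∈ M.U a → s a (i z) = u a z

section fam
variable {T : CT} {n : ℕ} {V : Mf n} (F : Fm T V)

/-- `l` is the class of the relative tangent bundle -/
def Rt (l : T.H V) : Prop := T.Dg V 1 l ∧ T.pull F.se.hol l = T.c1 F.U F.Tb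

/-- the second evaluation map of the fibre square -/
def E2 (w : F.Q.U2.X) : V.X := F.e (F.Q.q2 w)

theorem hE2 : HolM (F.k + 1 + 1) n (E2 F) := F.se.hol.comp F.Q.cart.hg'

/-- the pull back of `M`, twisted by `k` times the diagonal -/
def M2 (M : Bd V.X) (k : ℕ) : Bd F.Q.U2.X := (pull (E2 F) M).mul (F.Q.D.pow k)

/-- the class of the twisted pull back -/
def c2 (l : T.H V) (k : ℕ) : T.H F.Q.U2 := T.pull (hE2 F) l + (k : ℝ) • T.c1 F.Q.U2 F.Q.D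

/-- `G` extends `u`, with a pole of order at most `k` along the diagonal -/
def Xt (M : Bd V.X) {Z : Type} (i : Z → V.X) (u : M.ι → Z → ℂ) (k : ℕ)
    (G : (M2 F M k).ι → F.Q.U2.X → ℂ) : Prop :=
  IsSec (F.k + 1 + 1) (M2 F M k) G ∧ ∀ w z (a : M.ι) (b : F.Q.D.ι), E2 F w = i z → i z ∈ M.U a →
    w ∈ F.Q.D.U b → G (a, b) w = F.Q.s b w ^ k * u a z

/-- positivity on the fibre square, negativity on the fibres of the first projection -/
def Kp (c : T.H F.Q.U2) : Prop :=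
  (∃ N : Bd F.U.X, IsLB (F.k + 1) N ∧ Bpf (F.k + 1) N ∧ T.Kc F.Q.U2
    (c + T.pull F.Q.cart.sf'.hol (T.c1 F.U N) - T.c1 F.Q.U2 (Bd.can (F.k + 1 + 1) F.Q.U2.X))) ∧
  ∀ (C : Mf 1) (ι : C.X → F.Q.U2.X) (u : F.U.X) (h : Emb 1 (F.k + 1 + 1) ι (F.Q.q1 ⁻¹' {u})),
    T.Kc C (-T.pull h.hol c)

end fam

/-! ### The extension theorem -/

/-- row NEG: negative line bundles have no sections -/
def NEG : Prop := ∀ T : CT, T.OK → ∀ {m : ℕ} (V : Mf m) (L : Bd V.X), 0 < m → IsLB m L →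
  T.Kc V (-T.c1 V L) → ∀ s, IsSec m L s → ∀ a x, x ∈ L.U a → s a x = 0

/-- row DESC: sections descend along a submersion with connected fibres -/
def DESC : Prop := ∀ {u n : ℕ} (U : Mf u) (V : Mf n) (e : U.X → V.X) (M : Bd V.X), Sub u n e →
  (∀ x, IsConnected (e ⁻¹' {x})) → IsLB n M → ∀ t, IsSec u (pull e M) t →
  ∃ s, IsSec n M s ∧ ∀ a x, e x ∈ M.U a → s a (e x) = t a x

/-- row XPOS -/
def XPOS : Prop := ∀ T : CT, T.OK → ∀ {n : ℕ} {V : Mf n} (F : Fm T V) (l : T.H V) (k : ℕ),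
  T.Dg V 1 l → l ∈ T.Ty V → F.dg l = -((k : ℝ) + 1) → Kp F (c2 F l k)

/-- row XGL: extension on the fibre square -/
def XGL : Prop := ∀ T : CT, T.OK → ∀ {n m : ℕ} {V : Mf n} (F : Fm T V) (Z : Mf m) (A : Bd V.X)
  (σ : A.ι → V.X → ℂ) (i : Z.X → V.X), Cut A σ i → ∀ (M : Bd V.X) (k : ℕ), IsLB n M →
  Kp F (c2 F (T.c1 V M - T.c1 V A) k) → ∀ u, IsSec m (pull i M) u → ∃ G, Xt F M i u k G

/-- row XRD: the order of the pole drops -/
def XRD : Prop := ∀ T : CT, T.OK → ∀ {n : ℕ} {V : Mf n} (F : Fm T V) (M : Bd V.X) (Z : Type)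
  (i : Z → V.X) (u : M.ι → Z → ℂ) (k : ℕ), IsLB n M → 0 < F.m → ∀ G, Xt F M i u (k + 1) G →
  ∃ G', Xt F M i u k G'

/-- the extension theorem -/
def XT : Prop := ∀ T : CT, T.OK → ∀ {n : ℕ} {V : Mf n} (F : Fm T V) (l : T.H V) (k : ℕ),
  F.dg l = -((k : ℝ) + 1) → (k = 0 ∨ 0 < F.m) → Ex1 T V l

/-! ### Lifts of vector fields -/

/-- row RLB: the relative tangent bundle as a holomorphic line bundle -/
def RLB : Prop := ∀ {n y : ℕ} (V : Mf n) (Y : Mf y) (π : V.X → Y.X), Sub n y π → n = y + 1 →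
  ∃ v, Vg n y π (Lam n y π) v

/-- row LIFT -/
def LIFT : Prop := ∀ T : CT, T.OK → ∀ {n y : ℕ} (V : Mf n) (Y : Mf y) (π : V.X → Y.X) Λ v,
  n = y + 1 → Sub n y π → Prj n V.X → Vg n y π Λ v → Ex1 T V (T.c1 V Λ) → Lf n y π

/-- row ETG: unramified maps to a product -/
def ETG : Prop := ∀ {n y d : ℕ} (V : Mf n) (Y : Mf y) (M : Mf d) (π : V.X → Y.X) (μ : V.X → M.X),
  n = y + d → HolM n y π → HolM n d μ →
  (∀ x w, Df n y π x w = 0 → Df n d μ x w = 0 → w = 0) → Gen y Y.X → Gen d M.X → Gen n V.X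

/-! ### Numbers -/

/-- row NQ: quotients of a nef tangent bundle -/
def NQ : Prop := ∀ T : CT, T.OK → ∀ {n : ℕ} {V : Mf n} (F : Fm T V) (Λ : Bd V.X), NefT n V.X →
  IsLB n Λ → (∀ (C : Mf 1) (f : C.X → V.X), HolM 1 n f → ∃ α, QuoC n f (pull f Λ) α) →
  0 ≤ F.dg (T.c1 V Λ)

/-- row NRM: the class of a hypersurface which is unramified over the base -/
def NRM : Prop := ∀ T : CT, T.OK → ∀ {n y : ℕ} (V : Mf n) (Y O : Mf y) (π : V.X → Y.X)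
  (h : HolM n y π) (L : Bd V.X) (s : L.ι → V.X → ℂ) (i : O.X → V.X), V.Kah → Cut L s i →
  Nonempty O.X → Sub y y (fun z => π (i z)) →
  T.c1 V L * (T.c1 V L - (cX T V - T.pull h (cX T Y))) = 0 ∧ T.c1 V L ≠ 0 ∧
    ∀ F : Fm T V, 0 ≤ F.dg (T.c1 V L)

/-- row ALG -/
def ALG : Prop := ∀ T : CT, T.OK → ∀ {n : ℕ} {V : Mf n} (F G : Fm T V) (l z : T.H V), Rt F l →
  T.Dg V 1 z → G.dg l < 0 → z * (z - l) = 0 → z ≠ 0 → 0 ≤ F.dg z → 0 ≤ G.dg z →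
  (G.m = 0 → ∃ l', Rt G l' ∧ F.dg l' ≤ 0) → False

/-- row LAM: a family with `m = 0` -/
def LAM : Prop := ∀ T : CT, T.OK → ∀ {n : ℕ} {V : Mf n} (B : Bas T V) (i : B.J), (B.F i).m = 0 →
  n = (B.Q {i}).y + 1 ∧ Rt (B.F i) (cX T V - T.pull (B.Q {i}).sub.hol (cX T (B.Q {i}).Y)) ∧
    ∀ w, T.Kc (B.Q {i}).Y w →
      0 < T.int V (B.H i * T.pull (B.Q {i}).sub.hol (w ^ (B.Q {i}).y))

/-- row SGN: the signs of the Cartan numbers -/
def SGN : Prop := ∀ T : CT, T.OK → ∀ {n : ℕ} {V : Mf n} (F G : Fm T V) (l h : T.H V), F.m = 0 →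
  Rt F l → T.Nn V h → F.dg h = 1 → G.dg h = 0 → F.dg l = 2 ∧ G.dg l ≤ 0

/-- row DGZ: degrees are integers -/
def DGZ : Prop := ∀ T : CT, T.OK → ∀ {n : ℕ} {V : Mf n} (F : Fm T V) (L : Bd V.X), IsLB n L →
  ∃ z : ℤ, F.dg (T.c1 V L) = z

/-- row RFA: the volume changes sign under the reflection -/
def RFA : Prop := ∀ T : CT, T.OK → ∀ {n : ℕ} {V : Mf n} (F : Fm T V) (l x : T.H V), F.m = 0 →
  Rt F l → T.Dg V 1 x → T.int V ((x - F.dg x • l) ^ n) = -T.int V (x ^ n)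

/-- row RFB: two reflections generate a finite group -/
def RFB : Prop := ∀ (W : Type) [AddCommGroup W] [Module ℝ W] (P : W → ℝ) (f f' : W →ₗ[ℝ] ℝ)
  (l l' h w : W) (a a' : ℝ), (∃ p : Polynomial ℝ, ∀ t : ℝ, P (w + t • h) = p.eval t) →
  f l = 2 → f' l' = 2 → f' l = -a → f l' = -a' → (∀ x, P (x - f x • l) = -P x) →
  (∀ x, P (x - f' x • l') = -P x) → f h = 0 → f' h = 1 → P w ≠ 0 → 0 < a → 0 ≤ a' →
  0 < a' ∧ a * a' < 4

/-- row DIM1: the case where the Cartan numbers vanish -/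
def DIM1 : Prop := ∀ T : CT, T.OK → ∀ {n : ℕ} {V : Mf n} (B : Bas T V) (i : B.J),
  Nontrivial B.J → n = (B.Q {i}).y + 1 → Rt (B.F i) ((2 : ℝ) • B.H i) →
  (B.Q {i}ᶜ).y = 1 ∧ 1 < n

/-- row TRV: transversality of the two fibrations -/
def TRV : Prop := ∀ T : CT, T.OK → ∀ {n y d : ℕ} (V : Mf n) (Y : Mf y) (M : Mf d) (π : V.X → Y.X)
  (μ : V.X → M.X) (hπ : HolM n y π) (hμ : Sub n d μ) Λ v (w : T.H Y) (b b' : T.H M), n = y + 1 →
  d = 1 → ConnectedSpace V.X → V.Kah → (∀ t, IsConnected (μ ⁻¹' {t})) → Vg n y π Λ v →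
  T.Dg Y 1 w → T.c1 V Λ = T.pull hμ.hol b → T.int V (T.pull hμ.hol b' * T.pull hπ (w ^ y)) ≠ 0 →
  ∀ x u, Df n y π x u = 0 → Df n d μ x u = 0 → u = 0

end Vale.Agent.P280Z.Po
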