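import Vale.Agent.P280Z.Po.VertA
import Vale.Agent.P280Z.Po.VertD
import Vale.Agent.P280Z.Gp.Lie
import Vale.Agent.P280Z.Ld.Ber
import Vale.Agent.P277Z.Slc.Div

/-!
# P280Z, block Po, row VERT
-/

open scoped Manifold ContDiff Topology Matrix
open Set Filter Metric VectorField
open Vale.Agent.P272.K Vale.Agent.P285.H281.FD Vale.Agent.P281Z
open Vale.Agent.P277Z (Hol at_chart trans_an)
open Vale.Agent.P277Z.Slc (LEq dd tr)
open Vale.Agent.P280Z.Gp (IsField)
open Vale.Agent.P280Z.Gp.Lie (mt_mv mt_comp jac_eq)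

noncomputable section

namespace Vale.Agent.P280Z.Po

namespace Vt

section fld
variable {n : ℕ} {X : Type} [TopologicalSpace X] [ChartedSpace (Cm n) X]
  [IsManifold 𝓘(ℂ, Cm n) ω X] {e e' e₁ : Chart n X} {x : X} {ξ ζ : Chart n X → Cm n → Cm n}

theorem chg (h : IsField n ξ) (he : At e x) (he' : At e' x) :
    ξ e' (e' x) = tr e' e x (ξ e (e x)) := by
  rw [h.change e e' x he he', jac_eq he he', mt_mv]
  rfl

theorem tr_tr (he : At e x) (he' : At e' x) (h₁ : At e₁ x) (u : Cm n) :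
    tr e e' x (tr e' e₁ x u) = tr e e₁ x u :=
  (congrArg (· u) (df_comp (g := fun y => y) (f := fun y => y) (holM_id.at x) (holM_id.at x) h₁ he'
    he)).symm

theorem br (hξ : IsField n ξ) (hζ : IsField n ζ) :
    IsField n fun e => lieBracket ℂ (ξ e) (ζ e) := by
  refine ⟨fun e x he => (app (hζ.holo e x he).fderiv (hξ.holo e x he)).sub
    (app (hξ.holo e x he).fderiv (hζ.holo e x he)), fun e e' x he he' => ?_⟩
  have k : ∀ {ξ ζ : Chart n X → Cm n → Cm n}, IsField n ξ → IsField n ζ →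
      fderiv ℂ (fun z => fderiv ℂ (fun z => e' (e.symm z)) z (ζ e z)) (e x) (ξ e (e x)) =
        fderiv ℂ (ζ e') (e' x) (ξ e' (e' x)) := fun {ξ ζ} hξ hζ => by
    have a : (fun z => fderiv ℂ (fun z => e' (e.symm z)) z (ζ e z)) =ᶠ[𝓝 (e x)]
        ζ e' ∘ fun z => e' (e.symm z) :=
      Gp.Lie.ev he he' (Q := fun y z => fderiv ℂ (fun z => e' (e.symm z)) z (ζ e z) = ζ e' (e' y))
        fun y a b => (chg hζ a b).symm
    have b : HasFDerivAt (ζ e') (fderiv ℂ (ζ e') (e' x)) (e' (e.symm (e x))) := by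
      rw [he.left_inv]
      exact (hζ.holo e' x he').differentiableAt.hasFDerivAt
    rw [a.fderiv_eq, (b.comp (e x) (Gp.Lie.tr_d he he').hasFDerivAt).fderiv, chg hξ he he']
    rfl
  rw [jac_eq he he', mt_mv, fderiv_apply_lieBracket (Gp.Lie.tr_cd he he') (by simp)
    (hζ.holo e x he).differentiableAt (hξ.holo e x he).differentiableAt, k hξ hζ, k hζ hξ]
  rfl

variable (n X) in
/-- the space of the vector fields -/
def FS : Submodule ℂ (Chart n X → Cm n → Cm n) where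
  carrier := {ξ | IsField n ξ}
  add_mem' h k := ⟨fun e x he => (h.holo e x he).add (k.holo e x he), fun e e' x a b => by
    simp only [Pi.add_apply, h.change e e' x a b, k.change e e' x a b, Matrix.mulVec_add]⟩
  zero_mem' := ⟨fun _ _ _ => analyticAt_const, fun _ _ _ _ _ => (Matrix.mulVec_zero _).symm⟩
  smul_mem' c _ h := ⟨fun e x he => (h.holo e x he).const_smul (c := c), fun e e' x a b => by
    simp only [Pi.smul_apply, h.change e e' x a b, Matrix.mulVec_smul]⟩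

variable (n) in
/-- the fields span the tangent space -/
def Sp (x : X) : Prop := ∀ e : Chart n X, At e x → ∀ v, ∃ ξ, IsField n ξ ∧ ξ e (e x) = v

theorem sp_of (he : At e x) (h : ∀ v, ∃ ξ, IsField n ξ ∧ ξ e (e x) = v) : Sp n x := fun e' he' v =>
  let ⟨u, a⟩ := P277Z.Slc.tr_surj he' he v
  let ⟨ξ, b, c⟩ := h u
  ⟨ξ, b, by rw [chg b he he', c, a]⟩

theorem hol_tr (he : At e x) (he' : At e' x) (u : Cm n) (i : Fin n) :
    Hol n (fun y => tr e e' y u i) x :=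
  .of_chart he' ((analyticAt_pi_iff.1 (app (trans_an he he').fderiv (analyticAt_const (v := u)))
    i).congr ((P277Z.At.right he').mono fun z hz => by simp only [tr, hz]))

end fld

theorem lin_sum {n : ℕ} (B : Cm n →L[ℂ] ℂ) (w : Cm n) : ∑ i, B (Pi.single i 1) * w i = B w := by
  conv_rhs => rw [← Finset.univ_sum_single w, map_sum]
  exact Finset.sum_congr rfl fun i _ => by
    rw [mul_comm, ← smul_eq_mul, ← map_smul, ← Pi.single_smul, smul_eq_mul, mul_one]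

variable {y : ℕ}

/-- a covector on top of a linear map -/
def Φ (β : Cm (y + 1) →L[ℂ] ℂ) (A : Cm (y + 1) →L[ℂ] Cm y) : Cm (y + 1) →L[ℂ] Cm (y + 1) :=
  .pi (Fin.cons β fun a => (ContinuousLinearMap.proj a).comp A)

theorem Φ_chg (β : Cm (y + 1) →L[ℂ] ℂ) (A : Cm (y + 1) →L[ℂ] Cm y) (c : ℂ) (S : Cm y →L[ℂ] Cm y)
    (T : Cm (y + 1) →L[ℂ] Cm (y + 1)) : (Gp.Lie.mt (Φ (c • β.comp T) (S.comp (A.comp T)))).det =
      c * (Gp.Lie.mt S).det * (Gp.Lie.mt (Φ β A)).det * (Gp.Lie.mt T).det := by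
  have e : Φ (c • β.comp T) (S.comp (A.comp T)) = ((Φ (c • .proj 0)
      (S.comp (.pi fun a => .proj a.succ))).comp (Φ β A)).comp T := by
    ext1 u
    funext p
    refine Fin.cases rfl (fun a => rfl) p
  rw [e, mt_comp, mt_comp, Matrix.det_mul, Matrix.det_mul, Matrix.det_succ_row_zero,
    Fin.sum_univ_succ]
  congr 2
  simp only [Gp.Lie.mt, Φ, Matrix.of_apply, ContinuousLinearMap.pi_apply, Fin.cons_zero]
  simp only [_root_.smul_apply, ContinuousLinearMap.proj_apply, Pi.single_eq_same,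
    Pi.single_eq_of_ne (Fin.succ_ne_zero _).symm, mul_zero, zero_mul,
    Finset.sum_const_zero, add_zero, smul_eq_mul, mul_one, Fin.val_zero, pow_zero, one_mul]
  congr 2
  ext p q
  refine congrArg (fun u => S u p) (funext fun a => ?_)
  simp [Pi.single_apply]

variable {V : Mf (y + 1)} {Y : Mf y} {π : V.X → Y.X} {x : V.X} {e : Chart (y + 1) V.X}
  {e' : Chart y Y.X}

theorem frame (hl : Lf (y + 1) y π) (hg : Gp.Gen y Y.X) (he : At e x)
    (he' : At e' (π x)) : ∃ (r : ℝ) (ξ : Fin y → Cm (y + 1) → Cm (y + 1)) (v : _) (c : _) (o : _),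
      Fr (e x) r {X | ∃ ζ, IsField (y + 1) ζ ∧ ζ e = X} ξ v c o ∧ (∀ w ∈ ball (e x) r, o w v = 1) ∧
      (∀ u, df π e e' x u = 0 → u = o (e x) u • v) ∧
      ∀ᶠ z in 𝓝 x, At e z ∧ e z ∈ ball (e x) r ∧
        (¬ Sp (y + 1) z ↔ ∀ ζ, IsField (y + 1) ζ → o (e z) (ζ e (e z)) = 0) := by
  choose η h1 h2 using fun a : Fin y => hg e' _ he' (Pi.single a 1)
  choose ξ h3 h4 using fun a => hl _ (h1 a)
  obtain ⟨v, v1, v0⟩ := (Submodule.ne_bot_iff _).1 (LinearMap.ker_ne_bot_of_finrank_lt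
    (f := (df π e e' x : Cm (y + 1) →ₗ[ℂ] Cm y)) (by simp))
  let F : Cm (y + 1) → (Cm y × ℂ) →L[ℂ] Cm (y + 1) := fun w =>
    ∑ a, ((ContinuousLinearMap.proj a).comp (.fst ℂ _ _)).smulRight (ξ a e w) +
      (ContinuousLinearMap.snd ℂ _ _).smulRight v
  have F1 : ∀ w q, F w q = ∑ a, q.1 a • ξ a e w + q.2 • v := fun w q => by simp [F]
  have F2 : ∀ q, df π e e' x (F (e x) q) = q.1 := fun q => by
    have : df π e e' x v = 0 := v1
    simp only [F1, map_add, map_sum, map_smul, h4 _ x e e' he he', h2, this, smul_zero, add_zero,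
      ← Pi.single_smul, smul_eq_mul, mul_one, Finset.univ_sum_single]
  have Fa : AnalyticAt ℂ F (e x) := (Finset.analyticAt_fun_sum _ fun a _ =>
    ((ContinuousLinearMap.smulRightL ℂ (Cm y × ℂ) (Cm (y + 1)) ((ContinuousLinearMap.proj a).comp
      (.fst ℂ _ _))).analyticAt _).comp ((h3 a).holo e x he)).add
      analyticAt_const
  obtain ⟨i, hi⟩ : ∃ i : (Cm y × ℂ) ≃L[ℂ] Cm (y + 1), ↑i = F (e x) :=
    ⟨(LinearMap.linearEquivOfInjective (F (e x) : (Cm y × ℂ) →ₗ[ℂ] Cm (y + 1))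
      ((injective_iff_map_eq_zero _).2 fun q k => by
        have k : F (e x) q = 0 := k
        have a := F2 q
        rw [k, map_zero] at a
        rw [F1, ← a] at k
        exact Prod.ext a.symm (by simpa [v0] using k)) (by simp)).toContinuousLinearEquiv, rfl⟩
  obtain ⟨r, r0, hr⟩ := Metric.eventually_nhds_iff_ball.1 ((Fa.continuousAt.eventually
    (hi ▸ i.nhds)).and (Fa.eventually_analyticAt.and (e.open_target.mem_nhds (e.map_source he.2))))
  have Ia : ∀ w ∈ ball (e x) r, AnalyticAt ℂ (fun w => (F w).inverse) w := fun w hw => by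
    obtain ⟨j, hj⟩ := (hr w hw).1
    exact (contDiffAt_map_inverse (n := ω) j).analyticAt.comp_of_eq (hr w hw).2.1 hj.symm
  have Ib : ∀ A : (Cm y × ℂ) →L[ℂ] ℂ, ∀ w ∈ ball (e x) r,
      AnalyticAt ℂ (fun w => A.comp (F w).inverse) w := fun A w hw =>
    ((ContinuousLinearMap.compL ℂ (Cm (y + 1)) (Cm y × ℂ) ℂ A).analyticAt _).comp (Ia w hw)
  have I1 : ∀ w ∈ ball (e x) r, (∀ u, F w ((F w).inverse u) = u) ∧
      ∀ q, (F w).inverse (F w q) = q := fun w hw => by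
    obtain ⟨j, hj⟩ := (hr w hw).1
    simp [← hj]
  have I2 : ∀ w ∈ ball (e x) r, ∀ u, u = ∑ a, ((F w).inverse u).1 a • ξ a e w +
      ((F w).inverse u).2 • v := fun w hw u => ((I1 w hw).1 u).symm.trans (F1 _ _)
  have I3 : ∀ w ∈ ball (e x) r, ((F w).inverse v).2 = 1 := fun w hw => by
    simpa [F1] using congrArg Prod.snd ((I1 w hw).2 (0, 1))
  refine ⟨r, fun a => ξ a e, v, fun a w => ((ContinuousLinearMap.proj a).comp (.fst ℂ _ _)).comp
    (F w).inverse, fun w => (ContinuousLinearMap.snd ℂ _ _).comp (F w).inverse, ⟨r0, ?_, ?_,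
    fun a => ⟨_, h3 a, rfl⟩, fun a w hw => Ib _ w hw, Ib _, I2, fun w hw a => ?_⟩, I3, fun u hu => ?_, ?_⟩
  · rintro _ ⟨ζ, a, rfl⟩ w hw
    simpa only [e.right_inv (hr w hw).2.2] using a.holo e _ (.of_target he.1 (hr w hw).2.2)
  · rintro _ ⟨ζ, a, rfl⟩ _ ⟨ζ', b, rfl⟩
    exact ⟨_, br a b, rfl⟩
  · simpa [F1, Pi.single_apply] using congrArg Prod.snd ((I1 w hw).2 (Pi.single a 1, 0))
  · have a := F2 ((F (e x)).inverse u)
    rw [(I1 _ (mem_ball_self r0)).1, hu] at a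
    simpa [← a] using I2 _ (mem_ball_self r0) u
  · filter_upwards [at_near he, (e.continuousAt he.2).eventually (ball_mem_nhds _ r0)] with z a b
    refine ⟨a, b, fun k ζ m => not_not.1 fun p => k (sp_of a fun u => ?_), fun k p => ?_⟩
    · obtain ⟨t, ht⟩ : ∃ t, t * ((F (e z)).inverse (ζ e (e z))).2 = ((F (e z)).inverse u).2 :=
        ⟨_, div_mul_cancel₀ _ p⟩
      refine ⟨∑ a, (((F (e z)).inverse u).1 a - t * ((F (e z)).inverse (ζ e (e z))).1 a) • ξ a +
        t • ζ, (FS _ V.X).add_mem (Submodule.sum_mem _ fun a _ => Submodule.smul_mem _ _ (h3 a))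
          (Submodule.smul_mem _ _ m), ?_⟩
      have a1 := I2 _ b (ζ e (e z))
      have a2 := I2 _ b u
      simp only [Pi.add_apply, Finset.sum_apply, Pi.smul_apply]
      simp only [sub_smul, Finset.sum_sub_distrib, mul_smul, ← Finset.smul_sum]
      rw [← ht, mul_smul] at a2
      linear_combination (norm := module) t • a1 - a2
    · obtain ⟨ζ, m, q⟩ := p e a v
      exact one_ne_zero ((I3 _ b).symm.trans (q ▸ k ζ m))

/-- the normalised equation of the values of the fields -/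
def Q (π : V.X → Y.X) (e : Chart (y + 1) V.X) (e' : Chart y Y.X) (x : V.X)
    (β : Cm (y + 1) →L[ℂ] ℂ) : Prop :=
  (∀ ζ, IsField (y + 1) ζ → β (ζ e (e x)) = 0) ∧ (Gp.Lie.mt (Φ β (df π e e' x))).det = 1

theorem uniq (hs : Sub (y + 1) y π) (hl : Lf (y + 1) y π) (hg : Gp.Gen y Y.X)
    (hz : ∀ x : V.X, ¬ Sp (y + 1) x) (he : At e x) (he' : At e' (π x)) :
    ∃ b : V.X → Cm (y + 1) →L[ℂ] ℂ, (∀ u, Hol (y + 1) (fun z => b z u) x) ∧ b x ≠ 0 ∧
      ∀ᶠ z in 𝓝 x, ∀ β, Q π e e' z β ↔ β = b z := by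
  obtain ⟨r, ξ, v, c, o, H, h1, h2, h3⟩ := frame hl hg he he'
  have z0 := mem_ball_self (x := e x) H.r0
  obtain ⟨δ, hδ⟩ : ∃ δ : Cm (y + 1) → ℂ,
    δ = fun w => (Gp.Lie.mt (Φ (o w) (fderiv ℂ (fun z => e' (π (e.symm z))) w))).det := ⟨_, rfl⟩
  have δa : AnalyticAt ℂ δ (e x) := hδ ▸ P277.H762.analyticAt_det fun p q => Fin.cases
    (app (H.oa _ z0) analyticAt_const) (fun a => analyticAt_pi_iff.1
      (app ((hs.hol.at x).an he he').fderiv analyticAt_const) a) p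
  have δ0 : δ (e x) ≠ 0 := fun k => by
    obtain ⟨u, u0, u1⟩ := Matrix.exists_mulVec_eq_zero_iff.2 (hδ ▸ k :)
    rw [mt_mv] at u1
    exact u0 ((h2 u (funext fun a => congrFun u1 a.succ)).trans
      (by rw [show o (e x) u = 0 from congrFun u1 0, zero_smul]))
  have sc : ∀ (t : ℂ) z, (Gp.Lie.mt (Φ (t • o (e z)) (df π e e' z))).det = t * δ (e z) := fun t z => by
    have m1 : ∀ k, (Gp.Lie.mt (.id ℂ (Cm k))).det = 1 := fun k => by
      rw [show Gp.Lie.mt (.id ℂ (Cm k)) = 1 from Matrix.ext fun p q => by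
        simp [Gp.Lie.mt, Pi.single_apply, Matrix.one_apply], Matrix.det_one]
    have := Φ_chg (o (e z)) (df π e e' z) t (.id _ _) (.id _ _)
    rw [m1, m1, mul_one, mul_one] at this
    exact hδ ▸ this
  have o0 : o (e x) ≠ 0 := fun k => by simpa [k] using h1 _ z0
  refine ⟨fun z => (δ (e z))⁻¹ • o (e z), fun u => .of_chart he ((app ((δa.inv δ0).smul
    (H.oa _ z0)) (analyticAt_const (v := u))).congr ((P277Z.At.right he).mono fun z hz => by
      simp only [hz]; rfl)), smul_ne_zero (inv_ne_zero δ0) o0, ?_⟩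
  filter_upwards [h3, (e.continuousAt he.2).eventually (δa.continuousAt.eventually_ne δ0)]
    with z ⟨_, a, b⟩ d β
  refine ⟨fun k => ?_, fun k => k ▸ ⟨fun ζ m => by simp [b.1 (hz z) ζ m], by
    rw [sc, inv_mul_cancel₀ d]⟩⟩
  have f : β = β v • o (e z) := ContinuousLinearMap.ext fun u => by
    have g : ∀ a, β (ξ a (e z)) = 0 := fun a => let ⟨ζ, m, p⟩ := H.mem a; p ▸ k.1 ζ m
    simp [← H.lin a β u, g, mul_comm]
  have g := k.2
  rw [f, sc] at g
  rw [f, eq_inv_of_mul_eq_one_left g]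

theorem quo (hs : Sub (y + 1) y π) (hl : Lf (y + 1) y π) (hg : Gp.Gen y Y.X)
    (hz : ∀ x : V.X, ¬ Sp (y + 1) x) (C : Mf 1) (f : C.X → V.X) (hf : HolM 1 (y + 1) f) :
    ∃ α, QuoC (y + 1) f (P277.HD.pull f (Lam (y + 1) y π)) α := by
  choose! b b1 b2 b3 using fun e e' x => uniq (x := x) (e := e) (e' := e') hs hl hg hz
  have b4 : ∀ e e' x, At e x → At e' (π x) → ∀ β, Q π e e' x β ↔ β = b e e' x x :=
    fun e e' x a a' => (b3 e e' x a a').self_of_nhds
  refine ⟨fun e₀ a z j => b a.1 a.2 (f z) (f z) (tr a.1 e₀ (f z) (Pi.single j 1)),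
    fun e₀ a z h0 ha c hc => AnalyticAt.pi fun j => hf.hol (a := fun x =>
      b a.1 a.2 x x (tr a.1 e₀ x (Pi.single j 1))) ?_ c hc, fun e₀ a z h0 ha k => ?_,
    fun e₀ a a' z h0 ha ha' => ?_, fun e₀ e₁ a z h0 h1 ha => funext fun j => ?_⟩
  · refine Hol.congr (Hol.sum Finset.univ fun i _ => Hol.mul (b1 _ _ _ ha.1 ha.2 (Pi.single i 1))
      (hol_tr ha.1 h0 (Pi.single j 1) i)) ?_
    filter_upwards [b3 _ _ _ ha.1 ha.2, at_near ha.1, hs.hol.cont.continuousAt.eventually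
      (at_near ha.2)] with x p q s
    rw [lin_sum, (p _).1 ((b4 _ _ x q s _).2 rfl)]
  · refine b2 _ _ _ ha.1 ha.2 (ContinuousLinearMap.ext fun u => ?_)
    obtain ⟨w, rfl⟩ := P277Z.Slc.tr_surj ha.1 h0 u
    refine (lin_sum ((b a.1 a.2 (f z) (f z)).comp (tr a.1 e₀ (f z))) w).symm.trans ?_
    exact Finset.sum_eq_zero fun i _ => mul_eq_zero_of_left (congrFun k i) _
  · have q := (b4 _ _ _ ha'.1 ha'.2 _).2 rfl
    have p := (b4 _ _ _ ha.1 ha.2 ((((jacM a.1 a'.1 (f z)).det)⁻¹ * (jacM a.2 a'.2 (π (f z))).det) •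
      (b a'.1 a'.2 (f z) (f z)).comp (tr a'.1 a.1 (f z)))).1 ⟨fun ζ m =>
        mul_eq_zero_of_right _ ((congrArg _ (chg m ha.1 ha'.1).symm).trans (q.1 ζ m)), by
        have lb := P277Z.Slc.isLB_can (n := y) (W := Y.X)
        have d1 := Gp.Lie.det_ne ha.1 ha'.1
        have d2 : (jacM a.2 a'.2 (π (f z))).det * (jacM a'.2 a.2 (π (f z))).det = 1 :=
          (lb.cocycle _ _ _ _ ha.2 ha'.2 ha.2).trans (mul_right_cancel₀ (lb.ne_zero _ _ _ ha.2 ha.2)
            ((lb.cocycle _ _ _ _ ha.2 ha.2 ha.2).trans (one_mul _).symm))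
        rw [df_chart (hs.hol.at _) ha'.1 ha.1 ha'.2 ha.2, Φ_chg, q.2,
          show Gp.Lie.mt (tr a.2 a'.2 _) = _ from (jac_eq ha'.2 ha.2).symm,
          show Gp.Lie.mt (tr a'.1 a.1 _) = _ from (jac_eq ha.1 ha'.1).symm, mul_assoc _⁻¹, d2,
          mul_one, mul_one, inv_mul_cancel₀ d1]⟩
    funext j
    rw [← p]
    exact congrArg (fun u => _ * b a'.1 a'.2 (f z) (f z) u) (tr_tr ha'.1 ha.1 h0 _)
  · rw [← tr_tr ha.1 h1 h0, jac_eq h0 h1]
    exact (lin_sum ((b a.1 a.2 (f z) (f z)).comp (tr a.1 e₁ (f z))) _).symm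

theorem alt (hs : Sub (y + 1) y π) (hl : Lf (y + 1) y π) (hg : Gp.Gen y Y.X) (x : V.X) :
    (∀ᶠ z in 𝓝 x, ¬ Sp (y + 1) z) ∨ ∃ ζ, LEq (y + 1) {z | ¬ Sp (y + 1) z} x ζ ∧ (ζ x = 0 →
      ∀ u, Df (y + 1) y π x u = 0 → dd ζ (chartAt (Cm (y + 1)) x) x u = 0 → u = 0) := by
  have he := at_chart (n := y + 1) x
  obtain ⟨r, ξ, v, c, o, H, -, h2, h3⟩ := frame hl hg he (at_chart (π x))
  set e := chartAt (Cm (y + 1)) x
  have z0 := mem_ball_self (x := e x) H.r0
  by_cases hx : Sp (y + 1) x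
  · obtain ⟨ζ, a⟩ := not_forall.1 (mt h3.self_of_nhds.2.2.2 (not_not.2 hx))
    obtain ⟨m, a⟩ := Classical.not_imp.1 a
    refine .inr ⟨fun _ => 1, .of_chart ?_ (P277Z.hol_const 1 x) he fun k => absurd k one_ne_zero,
      fun k => absurd k one_ne_zero⟩
    filter_upwards [h3, (e.continuousAt he.2).eventually
      ((app (H.oa _ z0) (m.holo e x he)).continuousAt.eventually_ne a)] with z p q
    exact iff_of_false one_ne_zero fun k => q (p.2.2.1 k ζ m)
  rcases H.loc (N := y) (by simp) (by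
    rintro _ ⟨ζ, m, rfl⟩
    exact h3.self_of_nhds.2.2.1 hx ζ m) with k | ⟨ψ, k1, k2, k3⟩
  · exact .inl (h3.mono fun z p => p.2.2.2 fun ζ m => k _ p.2.1 _ ⟨ζ, m, rfl⟩)
  have ev : (fun z => ψ (e (e.symm z))) =ᶠ[𝓝 (e x)] ψ :=
    (P277Z.At.right he).mono fun z hz => congrArg ψ hz
  have d : dd (fun z => ψ (e z)) e x = fderiv ℂ ψ (e x) := ev.fderiv_eq
  refine .inr ⟨fun z => ψ (e z), .of_chart ?_ (.of_chart he (k1.congr ev.symm)) he fun _ p =>
    k2 (by rw [← d, p]; rfl), fun _ u p q => ?_⟩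
  · filter_upwards [h3, (e.continuousAt he.2).eventually k3] with z p q
    exact q.trans ⟨fun k => p.2.2.2 fun ζ m => k _ ⟨ζ, m, rfl⟩, fun k _ ⟨ζ, m, s⟩ =>
      s ▸ p.2.2.1 k ζ m⟩
  · rw [h2 u p, map_smul, d, smul_eq_mul] at q
    rw [h2 u p, (mul_eq_zero.1 q).resolve_right k2, zero_smul]

end Vt

open Vt in
/-- row VERT -/
theorem vert : VERT := by
  rintro _ y V Y π hs rfl hc hl hg
  set Z := {z : V.X | ¬ Sp (y + 1) z}
  have op : IsClopen (interior Z) := ⟨isClosed_of_closure_subset fun x hx => by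
    refine (alt hs hl hg x).elim mem_interior_iff_mem_nhds.2 fun ⟨ζ, a, _⟩ => ?_
    obtain ⟨z, p, q⟩ := ((mem_closure_iff_frequently.1 hx).and_eventually a.near).exists
    have he := at_chart (n := y + 1) z
    have k := (q.1.and (mem_interior_iff_mem_nhds.1 p)).mono fun w s => s.1.2 s.2
    exact absurd ((P277Z.Slc.dd_congr k he).trans (fderiv_const_apply _))
      ((q.2 _ he).2 k.self_of_nhds), isOpen_interior⟩
  rcases isClopen_iff.1 op with h | h
  swap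
  · exact .inr (.inl (quo hs hl hg fun x => interior_subset (h.ge (mem_univ x))))
  choose ζ h1 h2 using fun x => (alt hs hl hg x).resolve_left fun k =>
    h.le (mem_interior_iff_mem_nhds.2 k)
  by_cases h0 : Z.Nonempty
  swap
  · exact .inl fun e x he => not_not.1 (fun k => h0 ⟨x, k⟩ : ¬ ¬ Sp (y + 1) x) e he
  obtain ⟨L, s, hL⟩ := P277Z.Slc.stDiv _ V.X Z fun x => ⟨_, h1 x⟩
  obtain ⟨W, i, hi⟩ := Ld.BerH.cut hL.lb hL.sec fun x => (hL.lb.cover x).elim fun a ha =>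
    ⟨a, _, ha, at_chart x, ((hL.leq a x ha).2 _ (at_chart x)).2⟩
  have e : ∀ x, ¬ NZ L s x ↔ x ∈ Z := fun x => (hL.lb.cover x).elim fun a ha =>
    ((not_congr (nz_iff hL.lb (fun a b => hL.sec.change a b x) ha)).trans not_not).trans
      (hL.leq a x ha).mem
  have m : ∀ z, i z ∈ Z := fun z => (e _).1 (hi.emb.mem z)
  obtain ⟨x, hx⟩ := h0
  refine .inr (.inr ⟨W, i, L, s, hi, ⟨(hi.emb.ex ((e x).2 hx)).choose⟩, hs.hol.comp hi.emb.hol,
    fun z => imm_iff_sbm.1 (.of_chart ((hs.hol.comp hi.emb.hol).at z) (at_chart z) (at_chart _)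
      ((injective_iff_map_eq_zero _).2 fun u k => ?_))⟩)
  have ia := hi.emb.hol.at z
  rw [df_comp (hs.hol.at _) ia (at_chart z) (at_chart _) (at_chart _)] at k
  have k0 := ia.cont.eventually (h1 (i z)).1 |>.mono fun w s => s.2 (m w)
  have k1 := (P277Z.Slc.dd_congr k0 (at_chart (n := y) z)).trans (fderiv_const_apply _)
  rw [dd_comp (h1 _).hol ia (at_chart z) (at_chart _)] at k1
  exact (injective_iff_map_eq_zero _).1 (hi.emb.imm z _ _ (at_chart z) (at_chart _)) u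
    (h2 _ k0.self_of_nhds _ k (congrArg (· u) k1))

end Vale.Agent.P280Z.Po
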