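import Vale.Agent.P280Z.Po.Etg
import Vale.Agent.P280Z.Po.Vert
import Vale.Agent.P280Z.Ld.Va
import Vale.Agent.P280Z.Ld.Iso
import Vale.Agent.P281Z.Nt.Hyp

/-!
# P280Z, block Po, row LIFT: vector fields lift
-/

open scoped Manifold ContDiff Topology Matrix
open Set Filter
open Vale.Agent.P272.K Vale.Agent.P285.H281.FD Vale.Agent.P281Z
open Vale.Agent.P277Z (Hol at_chart)
open Vale.Agent.P277Z.Slc (dd tr dd_chart dd_congr)
open Vale.Agent.P277 (Bd.inv)
open Vale.Agent.P277.HD (pull)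
open Vale.Agent.P280Z.Gp (IsField)
open Vale.Agent.P280Z.Po.EtgH (Rl)

noncomputable section

namespace Vale.Agent.P280Z.Po

namespace LfH

variable {n y : ℕ} {V : Mf n} {Y : Mf y} {π : V.X → Y.X} {x : V.X} {e e' : Chart n V.X}
  {A Λ : Bd V.X} {p q : A.ι → V.X → ℂ} {a b : A.ι} {v : Λ.ι → Chart n V.X → V.X → Cm n}
  {ξ : Chart y Y.X → Cm y → Cm y}

theorem jac (he : At e x) (he' : At e' x) (u : Cm n) : jacM e e' x *ᵥ u = tr e' e x u := by
  rw [Gp.Lie.jac_eq he he', Gp.Lie.mt_mv]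
  rfl

theorem hol_dd {h : V.X → ℂ} {η : V.X → Cm n} (hh : Hol n h x) (he : At e x) (hη : AnV n η x) :
    Hol n (fun z => dd h e z (η z)) x :=
  .of_chart he ((Vt.app (hh e he).fderiv (hη e he)).congr
    ((P277Z.At.right he).mono fun z hz => by simp only [dd, hz]))

variable (p q a e x) in
/-- the form `p dq - q dp` -/
def W : Cm n →L[ℂ] ℂ := p a x • dd (q a) e x - q a x • dd (p a) e x

theorem W_chg (hA : IsLB n A) (hp : IsSec n A p) (hq : IsSec n A q) (ha : x ∈ A.U a)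
    (hb : x ∈ A.U b) (he : At e x) (he' : At e' x) (u : Cm n) :
    W x e p q a u = A.g a b x ^ 2 * W x e' p q b (tr e' e x u) := by
  have k : ∀ {p : A.ι → V.X → ℂ}, IsSec n A p → dd (p a) e x u =
      A.g a b x * dd (p b) e' x (tr e' e x u) + p b x * dd (A.g a b) e x u := fun {p} hp => by
    rw [dd_congr (b := fun z => A.g a b z * p b z) (((lb_near hA ha).and (lb_near hA hb)).mono
      fun z k => hp.change a b z k.1 k.2) he, dd, fderiv_fun_mul
        (lb_hol hA ha hb e he).differentiableAt (sec_hol hp hb e he).differentiableAt,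
      e.left_inv he.2]
    exact congrArg (fun L : Cm n →L[ℂ] ℂ => A.g a b x * L u + _) (dd_chart (sec_hol hp hb) he' he)
  simp only [W, _root_.sub_apply, _root_.smul_apply, smul_eq_mul, k hp, k hq,
    hp.change a b x ha hb, hq.change a b x ha hb]
  ring

theorem W_hol (hp : IsSec n A p) (hq : IsSec n A q) (ha : x ∈ A.U a) (he : At e x)
    {η : V.X → Cm n} (hη : AnV n η x) : Hol n (fun z => W z e p q a (η z)) x :=
  ((sec_hol hp ha).mul (hol_dd (sec_hol hq ha) he hη)).sub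
    ((sec_hol hq ha).mul (hol_dd (sec_hol hp ha) he hη))

theorem g_self (h : IsLB n A) (ha : x ∈ A.U a) : A.g a a x = 1 :=
  mul_right_cancel₀ (h.ne_zero _ _ _ ha ha) ((h.cocycle _ _ _ _ ha ha ha).trans (one_mul _).symm)

/-- twisted one forms -/
structure Fo (A : Bd V.X) (θ : A.ι → Chart n V.X → V.X → Cm n →L[ℂ] ℂ) : Prop where
  chg : ∀ a b e e' x, x ∈ A.U a → x ∈ A.U b → At e x → At e' x → ∀ u,
    θ a e x u = A.g a b x * θ b e' x (tr e' e x u)
  hol : ∀ a e x, x ∈ A.U a → At e x → ∀ η, AnV n η x → Hol n (fun z => θ a e z (η z)) x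

variable {θ : A.ι → Chart n V.X → V.X → Cm n →L[ℂ] ℂ} {l : Λ.ι}

variable (θ v) in
/-- the value on the vertical vector -/
def ev (a : (A.mul (Bd.inv Λ)).ι) (x : V.X) : ℂ :=
  θ a.1 (chartAt (Cm n) x) x (v a.2 (chartAt (Cm n) x) x)

theorem ev_eq (hA : IsLB n A) (h : Fo A θ) (hv : Vg n y π Λ v) (ha : x ∈ A.U a) (hl : x ∈ Λ.U l)
    (he : At e x) : θ a e x (v l e x) = ev v θ (a, l) x := by
  show _ = θ a _ x (v l _ x)
  rw [h.chg a a e _ x ha ha he (at_chart x), g_self hA ha, one_mul,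
    hv.chg l l e _ x hl hl he (at_chart x), g_self hv.lb hl, one_smul, jac he (at_chart x)]

theorem ev_sec (hA : IsLB n A) (h : Fo A θ) (hv : Vg n y π Λ v) :
    IsSec n (A.mul (Bd.inv Λ)) (ev v θ) := by
  refine isSec_of (fun a x ha => (h.hol a.1 _ x ha.1 (at_chart x) _
    (.pi (hv.hol a.2 _ x ha.2 (at_chart x)))).congr ?_) fun a b x ha hb => ?_
  · filter_upwards [lb_near hA ha.1, lb_near hv.lb ha.2, at_near (at_chart (n := n) x)]
      with z k1 k2 k3 using ev_eq (Λ := Λ) (l := a.2) hA h hv k1 k2 k3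
  · have he := at_chart (n := n) x
    show _ = A.g a.1 b.1 x * (Λ.g a.2 b.2 x)⁻¹ * _
    unfold ev
    rw [h.chg a.1 b.1 _ _ x ha.1 hb.1 he he, hv.chg a.2 b.2 _ _ x ha.2 hb.2 he he,
      jac he he, map_smul, smul_eq_mul, mul_assoc, inv_mul_cancel_left₀
        (hv.lb.ne_zero _ _ x ha.2 hb.2)]

theorem llift (hs : Sub n y π) (hξ : IsField y ξ) (he : At e x) :
    ∃ η, AnV n η x ∧ ∀ᶠ z in 𝓝 x, Rl π z e ξ (η z) := by
  have hf := at_chart (n := y) (π x)
  have a1 := (hs.hol.at x).an he hf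
  obtain ⟨s, k⟩ := (df π e (chartAt (Cm y) (π x)) x).toLinearMap.exists_rightInverse_of_surjective
    (LinearMap.range_eq_top.2 (hs.sbm x _ _ he hf))
  obtain ⟨B, hB⟩ : ∃ B : Cm n → Cm y →L[ℂ] Cm y, B = fun w => (fderiv ℂ (fun z => chartAt (Cm y)
    (π x) (π (e.symm z))) w).comp s.toContinuousLinearMap := ⟨_, rfl⟩
  have B1 : AnalyticAt ℂ B (e x) := hB ▸ (((ContinuousLinearMap.compL ℂ (Cm y) (Cm n)
    (Cm y)).flip s.toContinuousLinearMap).analyticAt _).comp a1.fderiv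
  have B2 : B (e x) = ((1 : (Cm y →L[ℂ] Cm y)ˣ) : Cm y →L[ℂ] Cm y) :=
    hB ▸ ContinuousLinearMap.ext fun u => LinearMap.congr_fun k u
  have a2 := (s.toContinuousLinearMap.analyticAt _).comp (Vt.app ((analyticAt_inverse (𝕜 := ℂ)
    1).comp_of_eq B1 B2) ((hξ.holo _ _ hf).comp_of_eq a1 (by rw [he.left_inv])))
  refine ⟨fun z => s (Ring.inverse (B (e z)) (ξ _ (chartAt (Cm y) (π x) (π z)))),
    .pi fun j => .of_chart he ((analyticAt_pi_iff.1 a2 j).congr
      ((P277Z.At.right he).mono fun z hz => by simp only [hz]; rfl)), ?_⟩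
  filter_upwards [at_near he, hs.hol.cont.continuousAt.eventually (at_near hf),
    (e.continuousAt he.2).eventually (B1.continuousAt.eventually
      (Units.isOpen.mem_nhds ⟨1, B2.symm⟩))] with z k1 k2 k3
  refine .of hξ hs.hol k1 k2 ?_
  have := congrArg (· (ξ (chartAt (Cm y) (π x)) (chartAt (Cm y) (π x) (π z))))
    (Ring.mul_inverse_cancel _ k3)
  rw [hB] at this ⊢
  exact this

theorem Rl_sub (hv : Vg n y π Λ v) (hl : x ∈ Λ.U l) (he : At e x) {u u' : Cm n}
    (k : Rl π x e ξ u) (k' : Rl π x e ξ u') : ∃ c : ℂ, u = u' + c • v l e x :=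
  ((hv.ker l e x _ hl he (at_chart _) (u - u')).1 (by
    rw [map_sub, k _ (at_chart _), k' _ (at_chart _), sub_self])).imp fun _ => eq_add_of_sub_eq'

theorem lift {T : CT} (hT : T.OK) {Z : Mf y} {i : Z.X → V.X} (hs : Sub n y π) (hA : IsLB n A)
    (h : Fo A θ) (hv : Vg n y π Λ v) (hc : Cut (A.mul (Bd.inv Λ)) (ev v θ) i)
    (hE : Ex1 T V (T.c1 V Λ)) : Lf n y π := by
  intro ξ hξ
  choose L L1 L2 using fun x => llift (x := x) hs hξ (at_chart x)
  have ind : ∀ a e z u, i z ∈ A.U a → At e (i z) → Rl π (i z) e ξ u →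
      θ a e (i z) u = θ a (chartAt (Cm n) (i z)) (i z) (L (i z) (i z)) := fun a e z u ha he k => by
    obtain ⟨l, hl⟩ := hv.lb.cover (i z)
    obtain ⟨c, k⟩ := Rl_sub hv hl (at_chart _) (k.chart hs.hol he (at_chart _))
      (L2 (i z)).self_of_nhds
    rw [h.chg a a e _ _ ha ha he (at_chart _), g_self hA ha, one_mul, ← jac he (at_chart _), k,
      map_add, map_smul, ev_eq hA h hv ha hl (at_chart _), hc.zero z (a := (a, l)) ⟨ha, hl⟩,
      smul_zero, add_zero]
  obtain ⟨r, r1, r2⟩ := hE Z _ _ i hc A hA (by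
    rw [hT.c1.mul V _ _ hA (Rh.lb_inv hv.lb), Rh.c1_inv hT hv.lb]; abel)
    (fun a z => θ a (chartAt (Cm n) (i z)) (i z) (L (i z) (i z))) (isSec_of (fun a z ha =>
      (hc.emb.hol.hol (h.hol a _ _ ha (at_chart _) _ (L1 (i z)))).congr (by
        filter_upwards [hc.emb.hol.cont.continuousAt.eventually ((lb_near hA ha).and
          ((at_near (at_chart (n := n) (i z))).and (L2 (i z))))] with w k
        exact ind a _ w _ k.1 k.2.1 k.2.2)) fun a b z ha hb => by
      have he := at_chart (n := n) (i z)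
      rw [h.chg a b _ _ _ ha hb he he, ← df_id, df_id_self he]
      rfl)
  let G (e : Chart n V.X) (x : V.X) (η : V.X → Cm n) : Prop := AnV n η x ∧ ∀ᶠ z in 𝓝 x,
    Rl π z e ξ (η z) ∧ ∀ a, z ∈ A.U a → θ a e z (η z) = r a z
  have ex : ∀ e x, At e x → ∃ η, G e x η := fun e x he => by
    obtain ⟨η, k1, k2⟩ := llift hs hξ he
    obtain ⟨a, ha⟩ := hA.cover x
    obtain ⟨l, hl⟩ := hv.lb.cover x
    have nb := (lb_near hA ha).and ((lb_near hv.lb hl).and (at_near he))
    obtain ⟨t, t1, t2⟩ := Nt.Hp.div (Ld.IsoH.leq hc (a := (a, l)) ⟨ha, hl⟩)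
      ((sec_hol r1 ha).sub (h.hol a e x ha he η k1)) (by
        filter_upwards [nb, k2] with w k k' m
        obtain ⟨z, rfl⟩ := hc.emb.ex m
        rw [r2 a z k.1, ind a e z _ k.1 k.2.2 k', sub_self])
    refine ⟨fun z => η z + t z • v l e z, .pi fun j => (k1.hol j).add (t1.mul
      (hv.hol l e x hl he j)), ?_⟩
    filter_upwards [nb, k2, t2] with z k k' m
    refine ⟨fun f hf => ?_, fun b hb => ?_⟩
    · rw [map_add, k' f hf, (hv.ker l e z f k.2.1 k.2.2 hf _).2 ⟨_, rfl⟩, add_zero]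
    · rw [h.chg b a e e z hb k.1 k.2.2 k.2.2, ← df_id, df_id_self k.2.2, r1.change b a z hb k.1,
        ContinuousLinearMap.id_apply, map_add, map_smul, ev_eq hA h hv k.1 k.2.1 k.2.2, smul_eq_mul,
        ← m, add_sub_cancel]
  have un : ∀ e x η η', At e x → G e x η → G e x η' → η x = η' x := fun e x η η' he k k' => by
    obtain ⟨a, ha⟩ := hA.cover x
    obtain ⟨l, hl⟩ := hv.lb.cover x
    refine tendsto_nhds_unique_of_frequently_eq k.1.cont k'.1.cont
      (((mem_closure_iff_frequently.1 ((Ld.div hc).1 x)).and_eventually ((k.2.and k'.2).and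
        ((lb_near hA ha).and ((lb_near hv.lb hl).and (at_near he))))).mono fun z m => ?_)
    obtain ⟨c, p⟩ := Rl_sub hv m.2.2.2.1 m.2.2.2.2 m.2.1.1.1 m.2.1.2.1
    have q := m.2.1.1.2 a m.2.2.1
    rw [p, map_add, m.2.1.2.2 a m.2.2.1, map_smul, ev_eq hA h hv m.2.2.1 m.2.2.2.1 m.2.2.2.2,
      add_eq_left, smul_eq_mul] at q
    rw [p, (mul_eq_zero.1 q).resolve_right (m.1 (a, l) ⟨m.2.2.1, m.2.2.2.1⟩), zero_smul, add_zero]
  choose! η hη using ex
  refine ⟨fun e z => η e (e.symm z) (e.symm z), ⟨fun e x he => ((hη e x he).1 e he).congr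
    (at_ev he (P := fun z => η e x z = η e z z) ?_), fun e e' x he he' => ?_⟩,
    fun x e e' he he' => ?_⟩
  · filter_upwards [at_near he, (hη e x he).2.eventually_nhds,
      eventually_all.2 fun j => ((hη e x he).1.hol j).near] with z k1 k2 k3
    exact un e z _ _ k1 ⟨.pi k3, k2⟩ (hη e z k1)
  · rw [he.left_inv, he'.left_inv, jac he he']
    refine un e' x _ (fun z => tr e' e z (η e x z)) he' (hη e' x he') ⟨.pi fun j => ?_, ?_⟩
    · refine (Hol.sum Finset.univ fun k _ => (Vt.hol_tr he' he (Pi.single k 1) j).mul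
        ((hη e x he).1.hol k)).congr (.of_forall fun z => ?_)
      exact Vt.lin_sum ((ContinuousLinearMap.proj j).comp (tr e' e z)) _
    · filter_upwards [at_near he, at_near he', (hη e x he).2] with z k1 k2 k3
      exact ⟨jac k1 k2 _ ▸ k3.1.chart hs.hol k1 k2, fun a ha => by
        rw [← k3.2 a ha, h.chg a a e e' z ha ha k1 k2, g_self hA ha, one_mul]⟩
  · simp only [he.left_inv]
    exact (hη e x he).2.self_of_nhds.1 e' he'

end LfH

open LfH in
/-- row LIFT -/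
theorem lift : LIFT := by
  rintro T hT _ y V Y π Λ v rfl hs ⟨A₀, a1, a2⟩ hv hE
  obtain ⟨k, r, s, -, hV⟩ := Ld.va V A₀ a1 a2
  have hA := lb_pow hV.lb 2
  have fo : ∀ c : Fin r × Fin r → ℂ, Fo ((A₀.pow k).pow 2)
      fun a e x => ∑ j, c j • W x e (s j.1) (s j.2) a := fun c =>
    ⟨fun a b e e' x ha hb he he' u => by
      simp only [_root_.sum_apply, _root_.smul_apply, smul_eq_mul, Finset.mul_sum]
      exact Finset.sum_congr rfl fun j _ => by
        rw [W_chg hV.lb (hV.sec _).1 (hV.sec _).1 ha hb he he', mul_left_comm]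
        rfl,
    fun a e x ha he η hη => (Hol.sum Finset.univ fun j _ => (P277Z.hol_const (c j) x).mul
      (W_hol (hV.sec j.1).1 (hV.sec j.2).1 ha he hη)).congr (.of_forall fun z => by simp)⟩
  have f1 : ∀ j : Fin r × Fin r, Fo ((A₀.pow k).pow 2) fun a e x => W x e (s j.1) (s j.2) a :=
    fun j => ⟨fun a b e e' x => W_chg hV.lb (hV.sec _).1 (hV.sec _).1, fun a e x ha he η =>
      W_hol (hV.sec j.1).1 (hV.sec j.2).1 ha he⟩
  have bs : Ld.Bs _ (fun j : Fin r × Fin r => ev (A := (A₀.pow k).pow 2) v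
      fun a e x => W x e (s j.1) (s j.2) a) = ∅ := eq_empty_of_forall_notMem fun x hx => by
    obtain ⟨a, ha⟩ := hA.cover x
    obtain ⟨l, hl⟩ := hv.lb.cover x
    refine hv.nz l _ x hl (at_chart x) (hV.tan x a _ _ ha (at_chart x) fun j j' => ?_)
    have := (Ld.not_nz (lb_mul hA (Rh.lb_inv hv.lb)) (ev_sec hA (f1 (j', j)) hv) (a := (a, l))
      ⟨ha, hl⟩).1 (hx (j', j))
    rw [mul_comm, mul_comm (dd _ _ _ _)]
    exact sub_eq_zero.1 this
  obtain ⟨c, Z, i, hc⟩ := (Ld.ber V _ _ _ (lb_mul hA (Rh.lb_inv hv.lb))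
    (fun j => ev_sec hA (f1 j) hv) (bs ▸ countable_empty) fun x hx => by simp [bs] at hx).exists
  refine LfH.lift hT (i := i) hs hA (fo c) hv ((congrArg (Cut _ · i)
    (funext₂ fun a x => ?_)).mp hc) hE
  simp [ev]

end Vale.Agent.P280Z.Po
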