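import Vale.Agent.P280Z.Po.All0
import Vale.Agent.P280Z.Po.Lift

/-!
# P280Z, block Po: the case of a bundle of projective lines
-/

namespace Vale.Agent.P280Z.Po

theorem pone : Rh.PONE := pone_of_lift lift

end Vale.Agent.P280Z.Po
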