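import Vale.Agent.P280Z.Po.Defs
import Vale.Agent.P280Z.Al.Lei

/-!
# P280Z, block Po, row ALG
-/

open scoped Manifold ContDiff Topology
open Set
open Vale.Agent.P272.K Vale.Agent.P281Z Vale.Agent.P280Z.Ma
open Vale.Agent.P280Z.Rh (Fm alg_inj)

noncomputable section

namespace Vale.Agent.P280Z.Po

namespace AlgH

variable {T : CT} {n : ℕ} {V : Mf n} (F : Fm T V) {l z o : T.H V}

theorem es_inj {a : T.H V} (h : T.pull F.se.hol a = 0) : a = 0 := by
  obtain ⟨D, hD, e⟩ := F.ns.D
  have k := F.ns.proj ((-(T.ns F.sp.hol F.se.hol F.η F.Tb F.E).τ) ^ F.m) a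
  rw [e, ← Algebra.smul_def, show (T.ns F.sp.hol F.se.hol F.η F.Tb F.E).es a = 0 from h, mul_zero,
    map_zero] at k
  exact (smul_eq_zero.1 k.symm).resolve_left hD.ne'

theorem key (hz : T.Dg V 1 z) (ho : T.Dg V 1 o) (h : z * o = 0) :
    T.pull F.se.hol (F.dg z • o + F.dg o • z) = (F.dg z * F.dg o) • T.c1 F.U F.Tb := by
  have k : T.dem F.sp.hol (T.pull F.se.hol z * T.pull F.se.hol o) =
      T.dem F.sp.hol (T.pull F.se.hol z) * T.pull F.se.hol o +
        T.pull F.se.hol z * T.dem F.sp.hol (T.pull F.se.hol o) - T.c1 F.U F.Tb *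
          T.dem F.sp.hol (T.pull F.se.hol z) * T.dem F.sp.hol (T.pull F.se.hol o) :=
    Al.LeiH.mul F.ns _ _
  rw [← map_mul, h, map_zero, map_zero, F.hdg z hz, F.hdg o ho] at k
  simp only [map_add, Algebra.smul_def, map_mul, AlgHom.commutes]
  linear_combination -k

theorem key' (hl : Rt F l) (hz : T.Dg V 1 z) (ho : T.Dg V 1 o) (h : z * o = 0) :
    F.dg z • o + F.dg o • z = (F.dg z * F.dg o) • l :=
  sub_eq_zero.1 (es_inj F (by rw [map_sub, key F hz ho h, map_smul, hl.2, sub_self]))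

theorem dg_two (hT : T.OK) (hl : Rt F l) : F.dg l = 2 := by
  obtain ⟨x⟩ := F.ne
  refine alg_inj hT F.kU x ?_
  rw [← F.hdg l hl.1, hl.2, map_ofNat]
  exact F.ns.Tτ

end AlgH

open AlgH in
/-- **row ALG** -/
theorem alg : ALG := fun T hT n V F G l z hl hz h1 h2 h3 h4 h5 h6 => by
  obtain ⟨o, rfl⟩ : ∃ o, l = z + o := ⟨l - z, by ring⟩
  have ho : T.Dg V 1 o := by
    have := hl.1
    rwa [CT.Dg, map_add, hz, add_right_inj] at this
  have h7 : z * o = 0 := by linear_combination -h2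
  have f1 := dg_two F hT hl
  have f2 := key' F hl hz ho h7
  rw [map_add] at f1 h1
  have f3 : F.dg z = 1 := by
    by_contra k
    have f4 : (F.dg z - 1) • (F.dg z • o - F.dg o • z) = 0 := by
      rw [show F.dg o = 2 - F.dg z by linarith] at f2 ⊢
      linear_combination (norm := module) f2
    have f5 := sub_eq_zero.1 ((smul_eq_zero.1 f4).resolve_left (sub_ne_zero.2 k))
    have f6 := congrArg G.dg f5
    rw [map_smul, map_smul, smul_eq_mul, smul_eq_mul, show F.dg o = 2 - F.dg z by linarith] at f6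
    have f7 : F.dg z = 0 := by nlinarith
    rw [f7, zero_smul] at f5
    exact h3 ((smul_eq_zero.1 f5.symm).resolve_left (by linarith))
  rcases G.m.eq_zero_or_pos with k | k
  · obtain ⟨l', g1, g2⟩ := h6 k
    have g3 := congrArg F.dg (key' G g1 hz ho h7)
    simp only [map_add, map_smul, smul_eq_mul, f3, show F.dg o = 1 by linarith] at g3
    nlinarith [mul_nonneg (mul_nonneg h5 (by linarith : 0 ≤ -G.dg o)) (neg_nonneg.2 g2)]
  · obtain ⟨u⟩ := G.ne
    obtain ⟨Z, i, hi⟩ := (Gm.fibi T hT G.e (G.e u) G.dim G.se).1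
    obtain ⟨x, -⟩ := hi.ex (show u ∈ G.e ⁻¹' {G.e u} from rfl)
    have g1 := kc_vol hT (G.tau Z i _ hi) x
    have g2 := key G hz ho h7
    have g3 : ∀ a, T.Dg V 1 a → T.pull hi.hol (T.pull G.se.hol a) = 0 := fun a ha => by
      rw [← hT.rg.pull_comp hi.hol G.se.hol (holM_const (G.e u)) fun x => (hi.mem x).symm]
      exact pull_const hT _ ha
    have g4 := congrArg (T.pull hi.hol) g2
    rw [map_add, map_add, map_smul, map_smul, map_smul, map_smul, g3 z hz, g3 o ho, smul_zero,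
      smul_zero, add_zero, map_smul] at g4
    rcases smul_eq_zero.1 g4.symm with g5 | g5
    · have g6 : G.dg z = 0 := (mul_eq_zero.1 g5).resolve_right (by linarith)
      rw [g6, zero_smul, zero_add, zero_mul, zero_smul] at g2
      exact h3 ((smul_eq_zero.1 (es_inj G g2)).resolve_left (by linarith))
    · rw [map_neg, g5, neg_zero, zero_pow k.ne', map_zero] at g1
      exact lt_irrefl _ g1

end Vale.Agent.P280Z.Po
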