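import Vale.Agent.P280Z.Po.Defs
import Vale.Agent.P280Z.Al.Lei

/-!
# P280Z, row PO-DIM1: the case where the Cartan numbers vanish
-/

open scoped Manifold ContDiff Topology Matrix
open Set Filter
open Vale.Agent.P272.K Vale.Agent.P285.H281.FD Vale.Agent.P281Z Vale.Agent.P280Z.Ma
open Vale.Agent.P280Z.Rh (Fm Bas cX pull_inj)

noncomputable section

namespace Vale.Agent.P280Z.Po

namespace Dim1H

/-- a Kähler class whose power vanishes bounds the dimension -/
theorem dim_lt {T : CT} (hT : T.OK) {n k : ℕ} {V : Mf n} {w : T.H V} (hw : T.Kc V w) (x : V.X)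
    (h : w ^ k = 0) : n < k := by
  by_contra hk
  have := kc_vol hT hw x
  rw [pow_eq_zero_of_le (not_lt.1 hk) h, map_zero] at this
  exact this.false

end Dim1H

open Dim1H

theorem dim1 : DIM1 := by
  intro T hT n V B i hJ hn hl
  obtain ⟨u⟩ := (B.F i).ne
  have hK : V.Kah := (hT.po.kah V).2 ⟨_, (B.F i).kη⟩
  have hs : Function.Surjective (B.F i).e := fun x => ((B.F i).fe x).nonempty
  have := (B.F i).cU
  have hc : ConnectedSpace V.X := hs.connectedSpace (B.F i).se.hol.cont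
  obtain ⟨w, hw, e⟩ := B.pH i
  have d1 : ∀ j, T.Dg V 1 (B.H j) := fun j => hT.po.deg (B.nn j)
  have nz : ∀ j, B.H j ≠ 0 := fun j h => by
    have := B.dual j j
    rw [h, map_zero, if_pos rfl] at this
    exact zero_ne_one this
  have inv : ∀ j ∈ (univ : Set B.J), (B.F j).Inv (B.H i ^ 2) := fun j _ => by
    by_cases hj : j = i
    · subst hj
      have h1 : T.dem (B.F j).sp.hol (T.c1 (B.F j).U (B.F j).Tb * T.c1 (B.F j).U (B.F j).Tb) = 0 :=
        Al.LeiH.tt (B.F j).ns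
      rw [← hl.2, ← map_mul, smul_mul_smul_comm, map_smul, map_smul, ← sq (B.H j)] at h1
      exact (smul_eq_zero.1 h1).resolve_left (by norm_num)
    · exact ((B.Q {i}ᶜ).s4 _).2 ⟨w ^ 2, by rw [map_pow, ← e]⟩ j hj
  have y0 : (B.Q univ).y = 0 := by
    obtain ⟨w0, h0⟩ := (hT.po.kah _).1 (B.Q univ).kah
    have h1 := B.span _ (dg_pull hT (B.Q univ).sub.hol (hT.po.deg h0))
    rw [Finset.sum_eq_zero fun j _ => by
      rw [(B.Q univ).dg_pull hT (mem_univ j) (hT.po.deg h0), zero_smul]] at h1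
    have h2 := pull_inj hT (B.Q univ).sub (B.Q univ).dim (B.Q univ).onto ((B.Q univ).conn hc) hK h1
    exact Nat.lt_one_iff.1 (dim_lt hT h0 ((B.Q univ).π ((B.F i).e u)) ((pow_one _).trans h2))
  obtain ⟨b, hb, eb⟩ := (B.Q univ).ex_dg hT (dg_pow hT (d1 i) 2) inv
  rw [← hb, hT.rg.pr_zero _ _ _ (by omega), map_zero, e, ← map_pow] at eb
  have h3 := dim_lt hT hw ((B.Q {i}ᶜ).π ((B.F i).e u))
    (pull_inj hT (B.Q {i}ᶜ).sub (B.Q {i}ᶜ).dim (B.Q {i}ᶜ).onto ((B.Q {i}ᶜ).conn hc) hK eb)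
  have h4 : ¬ (B.Q {i}ᶜ).y < 1 := fun h => nz i (by
    rw [e, ← hT.po.deg hw, hT.rg.pr_zero _ _ _ h, map_zero])
  obtain ⟨j, hj⟩ := exists_ne i
  have h5 : ¬ (B.Q {i}).y < 1 := fun h => nz j ((pow_one _).symm.trans
    ((B.Q {i}).pow_zero' hT (d1 j) (fun k hk => by
      rw [B.dual, if_neg fun c => hj (c.symm.trans hk)]) h))
  omega

end Vale.Agent.P280Z.Po
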