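import Vale.Agent.P280Z.Po.Defs
import Vale.Agent.P280Z.Rh.Dgf

/-!
# P280Z, block Po, row LAM: a family whose evaluation map has fibres of dimension zero
-/

open scoped Manifold ContDiff Topology Matrix
open Set Filter Function
open Vale.Agent.P272.K Vale.Agent.P285.H281.FD Vale.Agent.P281Z
open Vale.Agent.P277Z (at_chart)
open Vale.Agent.P280Z.Rh (Fm Bas cX Link)

noncomputable section

namespace Vale.Agent.P280Z.Po

namespace LamH

variable {T : CT} {a b : ℕ} {U : Mf a} {W : Mf b} {f : U.X → W.X}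

theorem inj (hf : Sub a b f) (h : a = b) (hc : ∀ y, IsConnected (f ⁻¹' {y})) : Injective f := by
  subst h
  intro x' x k
  obtain ⟨O, h1, h2⟩ := (imm_iff_sbm.2 (hf.sbm x)).inj (hf.hol.at x)
  by_contra c
  obtain ⟨z, l1, l2, l3⟩ := (hc (f x)).2 (interior O) {x}ᶜ isOpen_interior isOpen_compl_singleton
    (fun z _ => (eq_or_ne z x).imp (fun l : z = x => l ▸ mem_interior_iff_mem_nhds.2 h1) id)
    ⟨x, rfl, mem_interior_iff_mem_nhds.2 h1⟩ ⟨x', k, c⟩
  exact l3 (h2 (interior_subset l2) (mem_of_mem_nhds h1) l1)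

theorem imm (hf : Sub a b f) (h : Injective f) (x : U.X) : Imm a b f x := by
  obtain ⟨g, -, h2, h3⟩ := (hf.sbm x).sec (hf.hol.at x)
  exact .of_comp h2 (hf.hol.at x) ((imm_id x).cng
    ((hf.hol.cont.continuousAt.eventually h3).mono fun z hz => (h hz).symm))

theorem cx (hT : T.OK) (hf : Sub a b f) (h : a = b) : cX T U = T.pull hf.hol (cX T W) := by
  obtain ⟨E, hE⟩ := (Ma.rel_of vbl).ex f 0 hf h
  obtain ⟨h1, h2, h3⟩ := (Ma.rel_of vbl).ps T hT hf.hol hE
  have h4 := Ma.RelH.nE_spec (T.ps U E)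
  have h5 : Ma.RelH.nE (T.ps U E) 1 = T.ps U E 1 := by simpa [h4.1] using h4.2 0
  rw [cX, h3, ← h5, hT.ch.rank U E h1 _ h4 1 (by omega), zero_add]

end LamH

open LamH in
/-- **row LAM** -/
theorem lam : LAM := by
  intro T hT n V B i hm
  obtain ⟨q, hq, hc⟩ := (B.Q {i}).fac i rfl
  have hd := (B.F i).dim
  have ei := inj (B.F i).se (by omega) (B.F i).fe
  have rel : ∀ x x', Relation.EqvGen (Link B.F {i}) x x' → ∀ u u', (B.F i).e u = x →
      (B.F i).e u' = x' → (B.F i).p u = (B.F i).p u' := fun x x' h => by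
    induction h with
    | rel x x' h =>
      obtain ⟨j, rfl, v, v', l, rfl, rfl⟩ := h
      intro u u' k k'
      rw [ei k, ei k', l]
    | refl x => exact fun u u' k k' => by rw [ei (k.trans k'.symm)]
    | symm x x' _ ih => exact fun u u' k k' => (ih u' u k' k).symm
    | trans x x' x'' _ _ ih ih' =>
      obtain ⟨v, hv⟩ := ((B.F i).fe x').1
      exact fun u u' k k' => (ih u v k hv).trans (ih' v u' hv k')
  have qi : Injective q := fun y y' k => by
    obtain ⟨u, rfl⟩ := ((B.F i).fp y).1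
    obtain ⟨u', rfl⟩ := ((B.F i).fp y').1
    exact rel _ _ (((B.Q {i}).rel _ _).1 (by rw [← hc, ← hc, k])) u u' rfl rfl
  obtain ⟨u₀⟩ := (B.F i).ne
  have hk : (B.F i).k = (B.Q {i}).y :=
    le_antisymm (imm hq qi ((B.F i).p u₀)).le (hq.sbm ((B.F i).p u₀)).le
  have sq : ∀ c, T.pull (B.F i).se.hol (T.pull (B.Q {i}).sub.hol c) =
      T.pull (B.F i).sp.hol (T.pull hq.hol c) := fun c =>
    (hT.rg.pull_comp _ _ ((B.Q {i}).sub.hol.comp (B.F i).se.hol) (fun _ => rfl) c).symm.trans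
      (hT.rg.pull_comp _ _ _ (fun u => (hc u).symm) c)
  refine ⟨by omega, ⟨?_, ?_⟩, fun w hw => ?_⟩
  · rw [CT.Dg, map_sub, Rh.dg_cX hT V, Ma.dg_pull hT _ (Rh.dg_cX hT _)]
  · have h1 : T.ps _ (B.F i).E 1 + T.pull (B.F i).se.hol (cX T V) =
        T.c1 _ (B.F i).Tb ^ 1 + T.pull (B.F i).sp.hol (cX T (B.F i).K) := (B.F i).ns.ses 1
    rw [← ((Ma.rel_of vbl).ps T hT _ (B.F i).rel).2.2 1, pow_one, cx hT hq hk, ← sq] at h1
    rw [map_sub, ← cx hT (B.F i).se (by omega), sub_eq_iff_eq_add]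
    exact h1
  · obtain ⟨D, hD, h1⟩ := (B.F i).ns.D
    change T.push (B.F i).e ((-T.c1 _ (B.F i).Tb) ^ (B.F i).m) = _ at h1
    rw [hm, pow_zero] at h1
    have h2 := hT.po.deg (B.nn i)
    have h3 := Rh.Dgf.push_eq hT (B.F i) (Ma.dg_pull hT _ h2) ((B.F i).hdg _ h2)
    rw [B.dual, if_pos rfl, map_one] at h3
    have h4 := Ma.kc_vol hT (Ma.kc_pull hT hq.hol (fun z v hv => imm hq qi z _ _ (at_chart z)
      (at_chart _) (hv.trans (map_zero _).symm)) hw) ((B.F i).p u₀)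
    rw [congrArg (T.pull hq.hol w ^ ·) hk, ← map_pow, ← one_mul (T.pull _ _), ← h3,
      ← hT.pu.proj (B.F i).sp, hT.pu.int (B.F i).sp, ← sq, ← map_mul, ← hT.pu.int (B.F i).se,
      ← one_mul (T.pull _ _), hT.pu.proj (B.F i).se, h1, ← Algebra.smul_def, map_smul,
      smul_eq_mul] at h4
    exact (mul_pos_iff_of_pos_left hD).1 h4

end Vale.Agent.P280Z.Po
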