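import Vale.Agent.P280Z.Po.Defs
import Vale.Agent.P281Z.Sc.Sy
import Vale.Agent.P281Z.Mf.Sub

/-!
# P280Z, block Po: negative line bundles have no sections (row NEG)
-/

open Set Filter
open Vale.Agent.P272.K Vale.Agent.P285.H281.FD Vale.Agent.P281Z

namespace Vale.Agent.P280Z.Po

/-- **row NEG** -/
theorem neg : NEG := by
  intro T hT m V L hm hL hw s hs a x ha
  by_contra h0
  obtain ⟨k, rfl⟩ := Nat.exists_eq_succ_of_ne_zero hm.ne'
  obtain ⟨W, i, hc, hi⟩ := comp_emb V x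
  obtain ⟨y, rfl⟩ : x ∈ range i := hi.rng.symm ▸ mem_connectedComponent
  have h1 := hi.hol.lb hL
  have h2 := hi.hol.sec hs
  have h3 := Ma.kc_pull hT hi.hol (fun z v hv => hi.imm z _ _ (Rh.at_ch z) (Rh.at_ch _)
    (hv.trans (map_zero _).symm)) hw
  rw [map_neg, ← hT.c1.pull hi.hol L hL] at h3
  have h4 := (secP_of_sec (p := k + 1) (G := fun _ : Empty => ∅) (c := fun _ => 0) (O := univ)
    continuous_id h2 fun _ => le_rfl).dense_nz (fun _ => ⟨fun e => e.elim, fun e => e.elim⟩)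
    contMDiff_id h1 ⟨y, fun e => e.elim,
      (nz_iff h1 (fun a b => h2.change a b y) (a := a) ha).2 h0⟩
  have h5 := (hT.eff W _ _ k (fun _ => _) rfl h1 h2 (h4.mono fun _ h => h.2)
    fun _ => Rh.kc_nn hT h3).1
  have h6 := Ma.kc_vol hT h3 y
  rw [Fin.prod_const] at h5
  rw [pow_succ', neg_mul, map_neg] at h6
  linarith

end Vale.Agent.P280Z.Po
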