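import Vale.Agent.P280Z.Po.Defs
import Vale.Agent.P280Z.Rh.Dgf

/-!
# P280Z, block Po, row NQ: quotients of a nef tangent bundle
-/

open Vale.Agent.P272.K Vale.Agent.P285.H281.FD Vale.Agent.P281Z Vale.Agent.P280Z.Rh

namespace Vale.Agent.P280Z.Po

theorem nq : NQ := by
  intro T hT n V F Λ hN hΛ hq
  obtain ⟨u⟩ := F.ne
  obtain ⟨C, i, hi, cC, kC, -, -, h⟩ := dgf T hT F (F.p u)
  have hf := F.se.hol.comp hi.hol
  obtain ⟨α, hα⟩ := hq C _ hf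
  refine not_lt.1 fun h0 => hN C _ _ α cC hf (hf.lb hΛ) hα (hT.kp C _ (lb_inv (hf.lb hΛ)) ?_)
  obtain ⟨w, hw⟩ := (hT.po.kah C).1 kC
  obtain ⟨a, ha, e⟩ := (hT.ho.hl hw 0 1 rfl).2 _
    (hT.c1.deg C (P277.Bd.inv (P277.HD.pull (fun x => F.e (i x)) Λ)))
  obtain ⟨c, rfl⟩ := hT.rg.h0 C inferInstance a ha
  rw [mul_comm, ← Algebra.smul_def] at e
  have h1 := congrArg (T.int C) e
  rw [c1_inv hT (hf.lb hΛ), hT.c1.pull hf Λ hΛ, hT.rg.pull_comp hi.hol F.se.hol hf fun _ => rfl,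
    map_neg, h _ (hT.c1.deg V Λ), map_smul, smul_eq_mul] at h1
  rw [← e, pow_one]
  exact hT.po.smul c ((mul_pos_iff_of_pos_right (Ma.kc_vol hT hw cC.toNonempty.some)).1
    ((neg_pos.2 h0).trans_eq h1.symm)) hw

end Vale.Agent.P280Z.Po
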