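import Vale.Agent.P280Z.Po.Defs
import Vale.Agent.P280Z.Rh.Dgf
import Vale.Agent.P280Z.Ld.Iso

/-!
# P280Z, block Po: the class of a hypersurface which is unramified over the base
-/

open scoped Manifold ContDiff Topology Matrix
open Set Filter
open Vale.Agent.P272.K Vale.Agent.P285.H281.FD Vale.Agent.P281Z
open Vale.Agent.P277Z (at_chart)
open Vale.Agent.P277.HD (pull)
open Vale.Agent.P280Z.Rh (Fm cX)

noncomputable section

namespace Vale.Agent.P280Z.Po

namespace NrmH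

variable {T : CT}

theorem cX_et (hT : T.OK) {y : ℕ} {O Y : Mf y} {f : O.X → Y.X} (h : Sub y y f) :
    cX T O = T.pull h.hol (cX T Y) :=
  (hT.ch.iso O (vbl.tan O) (vbl.pull _ h.hol (vbl.tan Y)) (vbl.df h.hol) (fun x =>
    have k : Function.Surjective (Df y y f x) := h.sbm x _ _ (at_chart x) (at_chart _)
    ⟨(LinearMap.injective_iff_surjective (f := Df y y f x)).2 k, k⟩) 1).trans (hT.ch.pull h.hol _ (vbl.tan Y) 1)

theorem dg_eff (hT : T.OK) {n : ℕ} {V : Mf n} (F : Fm T V) {L : Bd V.X} {s : L.ι → V.X → ℂ}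
    (hL : IsLB n L) (hs : IsSec n L s) (hd : Dense {x | NZ L s x}) : 0 ≤ F.dg (T.c1 V L) := by
  obtain ⟨u⟩ := F.ne
  obtain ⟨w, hw⟩ := (hT.po.kah _).1 F.kK
  have h1 := (hT.eff F.U (pull F.e L) (fun a x => s a (F.e x)) F.k (fun _ => T.pull F.sp.hol w) rfl
    (F.se.hol.lb hL) (F.se.hol.sec hs) (fun x => mem_closure_iff_frequently.2
      ((F.se.sbm x).freq (F.se.hol.at x) (P := fun z => NZ L s z)
        (mem_closure_iff_frequently.1 (hd _)))) fun _ => Ma.nn_pull hT _ hw).1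
  rw [Finset.prod_const, Finset.card_univ, Fintype.card_fin, ← map_pow, ← hT.pu.int F.sp,
    hT.pu.proj F.sp, hT.c1.pull F.se.hol L hL, Rh.Dgf.push_eq hT F
      (Ma.dg_pull hT _ (hT.c1.deg V L)) (F.hdg _ (hT.c1.deg V L)), ← Algebra.smul_def, map_smul,
    smul_eq_mul] at h1
  exact nonneg_of_mul_nonneg_left h1 (Ma.kc_vol hT hw (F.p u))

end NrmH

open NrmH

theorem nrm : NRM := by
  intro T hT n y V Y O π h L s i hV hC ⟨z⟩ hS
  have hd := (Ld.div hC).1
  refine ⟨hT.ho.pd V hV _ fun b => ?_, fun k => ?_, fun F => dg_eff hT F hC.lb hC.sec hd⟩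
  · have h1 : T.pull hC.emb.hol (cX T V) = cX T O + T.pull hC.emb.hol (T.c1 V L) ^ 1 :=
      (Ma.rel_of vbl).adj T hT hC 1
    rw [mul_assoc, hT.pl hC, map_mul, map_sub, map_sub, h1, cX_et hT hS,
      hT.rg.pull_comp hC.emb.hol h hS.hol fun _ => rfl, pow_one, add_sub_cancel_left, sub_self,
      zero_mul, map_zero]
  · obtain ⟨w, hw⟩ := (hT.po.kah V).1 hV
    have h1 := (hT.eff V L s y (fun _ => w) hC.dim hC.lb hC.sec hd fun _ => Rh.kc_nn hT hw).2
      (fun _ => hw) ⟨i z, hC.emb.mem z⟩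
    rw [k, zero_mul, map_zero] at h1
    exact lt_irrefl _ h1

end Vale.Agent.P280Z.Po
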