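import Vale.Agent.P280Z.Po.Defs

/-!
# P280Z, block Po, row RFB: two reflections generate a finite group
-/

namespace Vale.Agent.P280Z.Po

theorem rfb : RFB := by
  intro W _ _ P f f' l l' h w a a' ⟨p, hp⟩ fl fl' f'l fl'' s s' fh f'h Pw ha ha'
  obtain ⟨Mi, hMi⟩ : ∃ Mi : ℝ → ℝ → Prop,
      ∀ α β, Mi α β ↔ ∀ x, α * f x + β * f' x = 0 → P x = 0 := ⟨_, fun _ _ => Iff.rfl⟩
  have m10 : f w ≠ 0 := fun h0 => by
    have k := s w
    rw [h0, zero_smul, sub_zero] at k
    exact Pw (by linarith)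
  have m01 : Mi 0 1 := (hMi _ _).2 fun x hx => by
    have k := s' x
    rw [zero_mul, zero_add, one_mul] at hx
    rw [hx, zero_smul, sub_zero] at k
    linarith
  have r1 : ∀ {α β}, Mi α β → Mi (-α + a * β) β := fun {α β} H => (hMi _ _).2 fun x hx => by
    have k := (hMi _ _).1 H (x - f x • l) (by
      simp only [map_sub, map_smul, smul_eq_mul, fl, f'l]
      linarith)
    linarith [s x]
  have r2 : ∀ {α β}, Mi α β → Mi α (-β + a' * α) := fun {α β} H => (hMi _ _).2 fun x hx => by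
    have k := (hMi _ _).1 H (x - f' x • l') (by
      simp only [map_sub, map_smul, smul_eq_mul, fl', fl'']
      linarith)
    linarith [s' x]
  have hom : ∀ {α β}, β ≠ 0 → Mi α β → Mi (α / β) 1 := fun {α β} hβ H =>
    (hMi _ _).2 fun x hx => (hMi _ _).1 H x (by
      have e : α * f x + β * f' x = β * (α / β * f x + 1 * f' x) := by field_simp
      rw [e, hx, mul_zero])
  have p0 : p ≠ 0 := by
    rintro rfl
    have k := hp 0
    rw [zero_smul, add_zero, Polynomial.eval_zero] at k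
    exact Pw k
  have fin : {ρ | Mi ρ 1}.Finite := by
    refine Set.Finite.of_finite_image (f := fun ρ => -(ρ * f w + f' w))
      ((p.finite_setOfPred_isRoot p0).subset ?_) fun x _ y _ hxy => ?_
    · rintro _ ⟨ρ, hρ, rfl⟩
      change p.eval _ = 0
      rw [← hp]
      refine (hMi _ _).1 hρ _ ?_
      simp only [map_add, map_smul, smul_eq_mul, fh, f'h]
      ring
    · exact mul_right_cancel₀ m10 (add_right_cancel (neg_injective hxy))
  have a0 : 0 < a' := by
    refine lt_of_le_of_ne ha' ?_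
    rintro rfl
    obtain ⟨ρ, hρ, hm⟩ := Set.exists_max_image _ id fin ⟨0, m01⟩
    have k := hm _ (hom (by norm_num) (r1 (r2 hρ)))
    have e : (-ρ + a * (-1 + 0 * ρ)) / (-1 + 0 * ρ) = ρ + a := by
      rw [zero_mul, add_zero]
      ring
    rw [e] at k
    exact absurd k (by simpa using ha)
  refine ⟨a0, not_le.1 fun h4 => ?_⟩
  obtain ⟨ρ, ⟨hρ, h1, h2⟩, hm⟩ := Set.exists_min_image
    {ρ | Mi ρ 1 ∧ a < 2 * ρ ∧ 0 < a' * ρ ^ 2 - a * a' * ρ + a} id
    (fin.subset fun _ hx => hx.1) ⟨a, by simpa using r1 m01, by linarith, by nlinarith⟩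
  have ρ0 : 0 < ρ := by linarith
  have d0 : 0 < -1 + a' * ρ := by nlinarith
  have k := hm _ ⟨hom d0.ne' (r1 (r2 hρ)), ?_, ?_⟩
  · rw [id, id, le_div_iff₀ d0] at k
    nlinarith
  · rw [← mul_div_assoc, lt_div_iff₀ d0]
    nlinarith
  · have e : a' * ((-ρ + a * (-1 + a' * ρ)) / (-1 + a' * ρ)) ^ 2 -
        a * a' * ((-ρ + a * (-1 + a' * ρ)) / (-1 + a' * ρ)) + a =
        (a' * ρ ^ 2 - a * a' * ρ + a) / (-1 + a' * ρ) ^ 2 := by
      field_simp
      ring
    rw [e]
    positivity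

end Vale.Agent.P280Z.Po
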