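import Vale.Agent.P280Z.Po.Defs
import Vale.Agent.P281Z.Mf.Adj

/-!
# P280Z, block Po: the relative tangent bundle as a holomorphic line bundle
-/

open scoped Manifold ContDiff Topology Matrix
open Set Filter Matrix
open Vale.Agent.P272.K Vale.Agent.P285.H281.FD Vale.Agent.P281Z
open Vale.Agent.P277Z (Hol hol_const)

set_option linter.all false

noncomputable section

namespace Vale.Agent.P280Z.Po

namespace RlbH

variable {y : ℕ}

/-- the vector of the maximal minors -/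
def cr (J : Matrix (Fin y) (Fin (y + 1)) ℂ) : Cm (y + 1) :=
  fun k => (-1) ^ (k : ℕ) * (J.submatrix id k.succAbove).det

/-- one more row -/
def cs (w : Cm (y + 1)) (J : Matrix (Fin y) (Fin (y + 1)) ℂ) :
    Matrix (Fin (y + 1)) (Fin (y + 1)) ℂ := Matrix.of (Fin.cons w J)

variable (J : Matrix (Fin y) (Fin (y + 1)) ℂ)

theorem det_cs (w : Cm (y + 1)) : (cs w J).det = w ⬝ᵥ cr J := by
  rw [det_succ_row_zero]
  refine Finset.sum_congr rfl fun k _ => ?_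
  rw [cr, mul_left_comm, mul_assoc]
  rfl

theorem cs_mulVec (w z : Cm (y + 1)) : cs w J *ᵥ z = Fin.cons (w ⬝ᵥ z) (J *ᵥ z) :=
  funext fun a => Fin.cases rfl (fun _ => rfl) a

theorem cr_left (A : Matrix (Fin y) (Fin y) ℂ) : cr (A * J) = A.det • cr J := by
  funext k
  have h : (A * J).submatrix id k.succAbove = A * J.submatrix id k.succAbove := rfl
  rw [Pi.smul_apply, cr, cr, h, det_mul, smul_eq_mul, mul_left_comm]

theorem cr_right (B : Matrix (Fin (y + 1)) (Fin (y + 1)) ℂ) :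
    B *ᵥ cr (J * B) = B.det • cr J := by
  have h : ∀ w, cs (w ᵥ* B) (J * B) = cs w J * B := fun w =>
    Matrix.ext fun a b => Fin.cases rfl (fun _ => rfl) a
  refine dotProduct_eq _ _ fun w => ?_
  rw [dotProduct_comm, dotProduct_mulVec, ← det_cs, h, det_mul, det_cs, smul_dotProduct,
    dotProduct_comm, smul_eq_mul, mul_comm]

theorem mul_cr : J *ᵥ cr J = 0 := by
  funext r
  exact (det_cs J (J r)).symm.trans (det_zero_of_row_eq (Fin.succ_ne_zero r).symm rfl)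

theorem ker {N : Matrix (Fin (y + 1)) (Fin y) ℂ} (h : J * N = 1) :
    cr J ≠ 0 ∧ ∀ z, J *ᵥ z = 0 ↔ ∃ c : ℂ, z = c • cr J := by
  obtain ⟨u, u0, u1⟩ := exists_mulVec_eq_zero_iff.2
    (show (cs 0 J).det = 0 by rw [det_cs, zero_dotProduct])
  have u2 : J *ᵥ u = 0 := funext fun r => congrFun u1 r.succ
  obtain ⟨k, hk⟩ := Function.ne_iff.1 u0
  obtain ⟨w, hw⟩ : ∃ w : Cm (y + 1), w ⬝ᵥ u = 1 :=
    ⟨Pi.single k (u k)⁻¹, by rw [single_dotProduct, inv_mul_cancel₀ hk]⟩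
  have h1 : IsUnit (cs w J) := mulVec_surjective_iff_isUnit.1 fun t =>
    ⟨N *ᵥ Fin.tail t + (t 0 - w ⬝ᵥ N *ᵥ Fin.tail t) • u, by
      rw [cs_mulVec, dotProduct_add, dotProduct_smul, hw, smul_eq_mul, mul_one, add_sub_cancel,
        mulVec_add, mulVec_smul, u2, smul_zero, add_zero, mulVec_mulVec, h, one_mulVec,
        Fin.cons_self_tail]⟩
  have h2 : ∀ z, J *ᵥ z = 0 → z = (w ⬝ᵥ z) • u := fun z hz =>
    mulVec_injective_iff_isUnit.2 h1 (by
      rw [cs_mulVec, cs_mulVec, dotProduct_smul, hw, smul_eq_mul, mul_one, mulVec_smul, u2,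
        smul_zero, hz])
  have h3 : w ⬝ᵥ cr J ≠ 0 := det_cs J w ▸ ((isUnit_iff_isUnit_det _).1 h1).ne_zero
  refine ⟨fun k => h3 (by rw [k, dotProduct_zero]), fun z => ⟨fun hz => ⟨w ⬝ᵥ z / w ⬝ᵥ cr J, ?_⟩,
    fun ⟨c, hc⟩ => by rw [hc, mulVec_smul, mul_cr, smul_zero]⟩⟩
  have h4 := h2 _ (mul_cr J)
  generalize w ⬝ᵥ cr J = a at h3 h4 ⊢
  rw [h4, smul_smul, div_mul_cancel₀ _ h3]
  exact h2 z hz

theorem inv_mulVec {n : ℕ} {A B : Matrix (Fin n) (Fin n) ℂ} (h : A * B = 1) (h' : B * A = 1)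
    (v w : Cm n) : A *ᵥ v = w ↔ v = B *ᵥ w :=
  ⟨fun k => by rw [← k, mulVec_mulVec, h', one_mulVec],
    fun k => by rw [k, mulVec_mulVec, h, one_mulVec]⟩

end RlbH

open RlbH

/-- **RLB** -/
theorem rlb : RLB := by
  rintro n y V Y π hπ rfl
  have hk := fun (a : (Lam (y + 1) y π).ι) x (ha : x ∈ (Lam (y + 1) y π).U a) =>
    RlbH.ker _ ((hπ.sbm x).rinv ha.1 ha.2)
  refine ⟨fun a e x => jacM a.1 e x *ᵥ cr (dfM π a.1 a.2 x),
    lb_mul (Rh.lb_inv P277Z.Slc.isLB_can) (hπ.hol.lb P277Z.Slc.isLB_can), ?_, ?_, ?_, ?_⟩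
  · intro a e x ha he k
    have h1 : ∀ l : Fin (y + 1), Hol (y + 1)
        (fun x' => ((dfM π a.1 a.2 x').submatrix id l.succAbove).det) x := fun l =>
      hol_det fun i j => hol_dfM (hπ.hol.at x) ha.1 ha.2 _ _
    have h2 : ∀ l, Hol (y + 1) (fun x' => jacM a.1 e x' k l) x := fun l =>
      Hol.of_chart ha.1 (jacM_holo ha.1 he k l).analyticAt
    exact Hol.sum Finset.univ fun l _ => (h2 l).mul ((hol_const ((-1) ^ (l : ℕ)) x).mul (h1 l))
  · intro a e x ha he h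
    rw [inv_mulVec (jacM_mul he ha.1) (jacM_mul ha.1 he), mulVec_zero] at h
    exact (hk a x ha).1 h
  · rintro ⟨e₁, f₁⟩ ⟨e₂, f₂⟩ e e' x ⟨a1, a2⟩ ⟨b1, b2⟩ he he'
    have h1 := cr_right (dfM π e₂ f₂ x) (jacM e₁ e₂ x)
    rw [← dfM_chg (hπ.hol.at x) b1 a1 b2, dfM_chg' (hπ.hol.at x) a1 a2 b2, cr_left,
      mulVec_smul] at h1
    have h2 := jacM_det_ne_zero a1 b1
    show jacM e₂ e' x *ᵥ cr (dfM π e₂ f₂ x) = ((jacM e₁ e₂ x).det⁻¹ * (jacM f₁ f₂ (π x)).det) •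
      (jacM e e' x *ᵥ (jacM e₁ e x *ᵥ cr (dfM π e₁ f₁ x)))
    rw [mulVec_mulVec, ← jacM_comp a1 he he', jacM_comp a1 b1 he', ← mulVec_mulVec,
      ← mulVec_smul, mul_smul, h1, inv_smul_smul₀ h2]
  · intro a e x e' ha he he' w
    rw [← dfM_mulVec, dfM_chg' (hπ.hol.at x) he ha.2 he', dfM_chg (hπ.hol.at x) ha.1 he ha.2,
      ← mulVec_mulVec, inv_mulVec (jacM_mul he' ha.2) (jacM_mul ha.2 he'), mulVec_zero,
      ← mulVec_mulVec, (hk a x ha).2]
    refine exists_congr fun c => ?_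
    rw [inv_mulVec (jacM_mul ha.1 he) (jacM_mul he ha.1), mulVec_smul]

end Vale.Agent.P280Z.Po
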