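import Vale.Agent.P280Z.Po.Defs
import Vale.Agent.P280Z.Rh.Dgf
import Vale.Agent.P280Z.Al.Lei

/-!
# P280Z, block Po: rows SGN and DGZ
-/

open scoped Manifold ContDiff Topology Matrix
open Set Filter
open Vale.Agent.P272.K Vale.Agent.P285.H281.FD Vale.Agent.P281Z
open Vale.Agent.P277.HD (pull)
open Vale.Agent.P280Z.Rh (Fm)

noncomputable section

namespace Vale.Agent.P280Z.Po

/-- row SGN -/
theorem sgn : SGN := by
  intro T hT n V F G l h hm hl hh h1 h0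
  obtain ⟨x⟩ := F.ne
  have t2 : T.dem F.sp.hol (T.c1 F.U F.Tb) = algebraMap ℝ _ 2 :=
    F.ns.Tτ.trans (map_ofNat (algebraMap ℝ (T.H F.U)) 2).symm
  refine ⟨Rh.alg_inj hT F.kU x (by rw [← F.hdg l hl.1, hl.2, t2]), ?_⟩
  have dh : T.Dg V 1 h := hT.po.deg hh
  have t1 : T.dem F.sp.hol (T.pull F.se.hol h) = 1 := by rw [F.hdg h dh, h1, map_one]
  have e1 : T.dem F.sp.hol (T.pull F.se.hol h * T.pull F.se.hol h) =
      T.dem F.sp.hol (T.pull F.se.hol h) * T.pull F.se.hol h +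
        T.pull F.se.hol h * T.dem F.sp.hol (T.pull F.se.hol h) - T.c1 F.U F.Tb *
        T.dem F.sp.hol (T.pull F.se.hol h) * T.dem F.sp.hol (T.pull F.se.hol h) :=
    Al.LeiH.mul F.ns _ _
  have e2 : T.pull F.sp.hol (T.push F.p (T.pull F.se.hol h * T.pull F.se.hol h)) =
      1 * T.pull F.se.hol (h + h - l) := by
    refine e1.trans ?_
    rw [t1, map_sub, map_add, hl.2]
    ring
  obtain ⟨D, hD, e3⟩ := F.ns.D
  have e4 : T.push F.e 1 = algebraMap ℝ _ D := by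
    rw [hm, pow_zero] at e3
    exact e3
  have n1 := Ma.nn_pull hT F.se.hol hh
  have w := hT.po.wp_push F.se (hT.po.wp_pull F.sp.hol (hT.po.wp_push F.sp
    (hT.po.wp_mul n1 (Rh.nn_wp hT n1))))
  rw [e2, hT.pu.proj F.se, e4, ← Algebra.smul_def] at w
  have k := G.dg_nn hT (hT.po.wp_nn w (by rw [CT.Dg, map_smul, map_sub, map_add, dh, hl.1]))
  rw [map_smul, map_sub, map_add, h0, smul_eq_mul] at k
  have := nonneg_of_mul_nonneg_right k hD
  linarith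

/-- row DGZ -/
theorem dgz_of (hI : Rh.INT) : DGZ := by
  intro T hT n V F L hL
  obtain ⟨x⟩ := F.ne
  obtain ⟨C, i, hi, -, -, -, -, h⟩ := Rh.dgf T hT F (F.p x)
  obtain ⟨A, hA, hP⟩ := F.prj
  have hp : Pos 1 (pull i A) := by
    refine hT.kp C _ (hi.hol.lb hA) ?_
    rw [hT.c1.pull hi.hol A hA]
    exact Ma.kc_pull hT hi.hol (fun z v hv => hi.imm z _ _ (Rh.at_ch _) (Rh.at_ch _)
      (hv.trans (map_zero _).symm)) (hT.c1.pos _ A hA hP)
  obtain ⟨z, hz⟩ := hI T hT C (fun _ => pull i (pull F.e L)) ⟨_, hi.hol.lb hA, hp⟩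
    fun _ => hi.hol.lb (F.se.hol.lb hL)
  refine ⟨z, ?_⟩
  rw [← hz, Fin.prod_univ_one, hT.c1.pull hi.hol _ (F.se.hol.lb hL), hT.c1.pull F.se.hol _ hL,
    h _ (hT.c1.deg V L)]

end Vale.Agent.P280Z.Po
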