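import Vale.Agent.P280Z.Po.Defs
import Vale.Agent.P280Z.Gm.Rt
import Vale.Agent.P281Z.Mf.Adj
import Vale.Agent.P281Z.Mf.Sub

/-!
# P280Z, block Po: transversality of the two fibrations
-/

open scoped Manifold ContDiff Topology Matrix
open Set Filter
open Vale.Agent.P272.K Vale.Agent.P285.H281.FD Vale.Agent.P281Z Vale.Agent.P280Z.Ma
open Vale.Agent.P277Z (Hol at_chart)
open Vale.Agent.P277.HD (pull)
open Vale.Agent.P277 (Bd.inv)

noncomputable section

namespace Vale.Agent.P280Z.Po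

namespace TrvH

variable {n y d g : ℕ} {V : Mf n} {Y : Mf y} {M : Mf d} {π : V.X → Y.X} {μ : V.X → M.X}
  {Λ : Bd V.X} {v : Λ.ι → Chart n V.X → V.X → Cm n} {G : Mf g} {ι : G.X → V.X} {t : M.X}

theorem chg (h : Vg n y π Λ v) (hμ : HolM n d μ) {a b : Λ.ι} {e e' : Chart n V.X}
    {f : Chart d M.X} {x : V.X} (ha : x ∈ Λ.U a) (hb : x ∈ Λ.U b) (he : At e x) (he' : At e' x)
    (hf : At f (μ x)) : df μ e' f x (v b e' x) = Λ.g a b x • df μ e f x (v a e x) := by
  rw [h.chg a b e e' x ha hb he he', map_smul, ← dfM_mulVec, ← dfM_mulVec, Matrix.mulVec_mulVec,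
    ← dfM_chg (hμ.at x) he' he hf]

/-- the derivative of `μ` along `v`, on a fibre -/
def sg (μ : V.X → M.X) (v : Λ.ι → Chart n V.X → V.X → Cm n) (ι : G.X → V.X) (t : M.X) (k : Fin d)
    (a : Λ.ι) (z : G.X) : ℂ :=
  df μ (chartAt (Cm n) (ι z)) (chartAt (Cm d) t) (ι z) (v a (chartAt (Cm n) (ι z)) (ι z)) k

theorem sec (h : Vg n y π Λ v) (hμ : HolM n d μ) (hι : HolM g n ι) (ht : ∀ z, μ (ι z) = t)
    (k : Fin d) : IsSec g (pull ι (Bd.inv Λ)) (sg (Λ := Λ) μ v ι t k) := by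
  have hf : ∀ z, At (chartAt (Cm d) t) (μ (ι z)) := fun z => (ht z).symm ▸ at_chart t
  refine isSec_of (fun a z ha => ?_) fun a b z ha hb => ?_
  · have he := at_chart (n := n) (ι z)
    refine (hι.hol (Hol.sum Finset.univ fun j _ => (hol_dfM (hμ.at _) he (hf z) k j).mul
      (h.hol a _ _ ha he j))).congr ?_
    filter_upwards [hι.cont.continuousAt.eventually (at_near he),
      hι.cont.continuousAt.eventually (lb_near h.lb ha)] with z' k1 k2
    unfold sg
    rw [chg h hμ k2 k2 k1 (at_chart _) (hf z'), lb_self h.lb k2, one_smul, ← dfM_mulVec]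
    rfl
  · show sg (Λ := Λ) μ v ι t k a z = (Λ.g a b (ι z))⁻¹ * sg (Λ := Λ) μ v ι t k b z
    unfold sg
    rw [chg h hμ ha hb (at_chart _) (at_chart _) (hf z), Pi.smul_apply, smul_eq_mul,
      inv_mul_cancel_left₀ (h.lb.ne_zero a b _ ha hb)]

/-- the kernel of the differential is the tangent space of the fibre -/
theorem ker_eq (hn : n = d + g) (hμ : Sub n d μ) (hι : Emb g n ι (μ ⁻¹' {t})) (z : G.X)
    {c : Chart g G.X} {e : Chart n V.X} {f : Chart d M.X} (hc : At c z) (he : At e (ι z))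
    (hf : At f (μ (ι z))) {w : Cm n} (hw : df μ e f (ι z) w = 0) : ∃ s, df ι c e z s = w := by
  have h1 : LinearMap.range (df ι c e z : Cm g →ₗ[ℂ] Cm n) ≤
      LinearMap.ker (df μ e f (ι z) : Cm n →ₗ[ℂ] Cm d) := by
    rintro _ ⟨s, rfl⟩
    have h2 := df_comp (hμ.hol.at _) (hι.hol.at z) hc he hf
    rw [show (fun x => μ (ι x)) = fun _ => t from funext hι.fib] at h2
    exact (DFunLike.congr_fun h2 s).symm.trans (by simp [df])
  have h2 := LinearMap.finrank_range_add_finrank_ker (df μ e f (ι z) : Cm n →ₗ[ℂ] Cm d)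
  rw [LinearMap.range_eq_top.2 (hμ.sbm _ e f he hf), finrank_top] at h2
  have h3 := LinearMap.finrank_range_of_inj (f := (df ι c e z : Cm g →ₗ[ℂ] Cm n))
    (hι.imm z c e hc he)
  simp only [Module.finrank_fin_fun] at h2 h3
  exact (Submodule.eq_of_le_of_finrank_eq h1 (by omega)).ge hw

end TrvH

open TrvH in
/-- **row TRV** -/
theorem trv : TRV := by
  intro T hT n y d V Y M π μ hπ hμ Λ v w b b' hn hd hV hK hc hv hw hb h0 x u h1 h2
  subst hn hd
  by_contra hu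
  obtain ⟨⟨G, ι, hι⟩, hint⟩ := Gm.fibi T hT μ (μ x) (add_comm y 1) hμ
  obtain ⟨w₀, hw₀⟩ := (hT.po.kah V).1 hK
  have hs := sec hv hμ.hol hι.hol hι.fib 0
  have hl := hι.hol.lb (Rh.lb_inv hv.lb)
  have h3 : T.c1 G (pull ι (Bd.inv Λ)) = 0 := by
    rw [hT.c1.pull hι.hol _ (Rh.lb_inv hv.lb), Rh.c1_inv hT hv.lb, ← hT.c1.deg V Λ, hb,
      ← hT.rg.pull_pr, map_neg, ← hT.rg.pull_comp hι.hol hμ.hol (holM_const (μ x))
        fun z => (hι.fib z).symm, pull_const hT (j := 0) _ ((hT.rg.pr_pr _ 1 1 b).trans (if_pos rfl)),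
      neg_zero]
  have h4 : ∀ z, ¬ NZ (pull ι (Bd.inv Λ)) (sg (Λ := Λ) μ v ι (μ x) 0) z := fun z hz => by
    obtain ⟨z₀, rfl⟩ := hι.ex (y := x) rfl
    obtain ⟨a, ha⟩ := hv.lb.cover (ι z₀)
    obtain ⟨c, rfl⟩ := (hv.ker a _ _ _ ha (at_chart _) (at_chart _) u).1 h1
    refine Gm.RtH.nozero hT (hι.conn.2 (hc _)) (kc_pull hT hι.hol (fun z v hv => hι.imm z _ _
      (at_chart _) (at_chart _) (hv.trans (map_zero _).symm)) hw₀) hl h3 hs hz z₀ a ha ?_
    rw [map_smul, smul_eq_zero] at h2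
    exact congrFun (h2.resolve_left fun k => hu (by rw [k, zero_smul])) 0
  have h5 : T.pull hι.hol (T.pull hπ (w ^ y)) = 0 := by
    rw [← hT.rg.pull_comp hι.hol hπ (hπ.comp hι.hol) fun _ => rfl, ← dg_pow hT hw y]
    refine hT.rg.van _ _ (fun z => ?_) _
    obtain ⟨a, ha⟩ := hv.lb.cover (ι z)
    have k1 := not_not.1 (mt (nz_iff hl (fun a b => hs.change a b z) (a := a) ha).2 (h4 z))
    obtain ⟨s, k2⟩ := ker_eq (add_comm y 1) hμ hι z (at_chart z) (at_chart _)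
      (f := chartAt (Cm 1) (μ x)) ((hι.fib z).symm ▸ at_chart _)
      (w := v a (chartAt (Cm (y + 1)) (ι z)) (ι z)) (funext fun k => Subsingleton.elim 0 k ▸ k1)
    have k3 : s ∈ LinearMap.ker (Df y y (fun z => π (ι z)) z) :=
      (DFunLike.congr_fun (df_comp (hπ.at _) (hι.hol.at z) (at_chart z) (at_chart _) (at_chart _))
        s).trans ((hv.ker a _ _ _ ha (at_chart _) (at_chart _) _).2 ⟨1, k2.trans (one_smul _ _).symm⟩)
    have k4 : s ≠ 0 := fun k => hv.nz a _ _ ha (at_chart _) (by rw [← k2, k, map_zero])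
    have k5 := LinearMap.finrank_range_add_finrank_ker (Df y y (fun z => π (ι z)) z)
    have k6 := Submodule.one_le_finrank_iff.2 ((Submodule.ne_bot_iff _).2 ⟨s, k3, k4⟩)
    rw [Module.finrank_fin_fun] at k5
    omega
  have hM : ConnectedSpace M.X :=
    Function.Surjective.connectedSpace (fun t => (hc t).1) hμ.hol.cont
  obtain ⟨c, h6⟩ := hT.rg.h0 M inferInstance (T.push μ (T.pull hπ (w ^ y))) (by
    rw [CT.Dg, hT.pu.deg hμ y (add_comm y 1), zero_add, dg_pull hT hπ (dg_pow hT hw y)])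
  have h7 := hint G ι hι _ c h6
  rw [h5, map_zero] at h7
  refine h0 ?_
  rw [← hT.pu.int hμ, mul_comm, hT.pu.proj hμ, h6, ← h7, map_zero, zero_mul, map_zero]

end Vale.Agent.P280Z.Po
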