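import Vale.Agent.P280Z.Po.Defs
import Vale.Agent.P280Z.Ld.Api
import Vale.Agent.P281Z.Mf.Fib

/-!
# P280Z, block Po: extension on the fibre square
-/

open scoped Manifold ContDiff Topology
open Set Filter
open Vale.Agent.P272.K Vale.Agent.P285.H281.FD Vale.Agent.P281Z
open Vale.Agent.P277Z (Hol)
open Vale.Agent.P277Z.Slc (LEq)
open Vale.Agent.P277.HD (pull)
open Vale.Agent.P277 (Bd.inv)

noncomputable section

namespace Vale.Agent.P280Z.Po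

namespace XglH

/-- the pull back of a smooth hypersurface by a submersion -/
theorem cut_pull {n m d : ℕ} {V : Mf n} {Z : Mf m} {W : Mf (d + 1)} {A : Bd V.X}
    {σ : A.ι → V.X → ℂ} {i : Z.X → V.X} (h : Cut A σ i) {E : W.X → V.X} (hE : Sub (d + 1) n E) :
    ∃ (Z' : Mf d) (i' : Z'.X → W.X), Cut (pull E A) (fun a w => σ a (E w)) i' := by
  have h6 : ∀ a w, E w ∈ A.U a → LEq (d + 1) (E ⁻¹' {y | ¬ NZ A σ y}) w fun y => σ a (E y) :=
    fun a w k => (hE.sbm w).leq (hE.hol.at w) (h.isDiv.leq a _ k)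
  obtain ⟨Z', i', hi⟩ := SubM.emb (n := d + 1) (d := d) (S := E ⁻¹' {y | ¬ NZ A σ y})
    (fun y hy => by
      obtain ⟨j, hj⟩ := h.lb.cover (E y)
      exact ⟨1, fun _ w => σ j (E w), rfl, ⟨fun _ => (h6 j y hj).hol, fun e he =>
        linearIndependent_unique_iff.2 (((h6 j y hj).2 e he).2 ((h6 j y hj).mem.2 hy))⟩,
        (h6 j y hj).1.mono fun z k => ⟨fun l _ => k.2 l, fun l => k.1 (l 0)⟩⟩)
    (h.isDiv.closed.preimage hE.hol.cont).isCompact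
  exact ⟨Z', i', rfl, hE.hol.lb h.lb, hE.hol.sec h.sec, hi, fun z a ha e he =>
    ((h6 a _ ha).2 e he).2 ((h6 a _ ha).mem.2 (hi.rng.le (mem_range_self z)))⟩

variable {T : CT} {d : ℕ} {W : Mf (d + 1)} {U Z : Mf d} {q : W.X → U.X} {A P : Bd W.X}
  {σ : A.ι → W.X → ℂ} {i : Z.X → W.X}

/-- a section which vanishes on the hypersurface is zero -/
theorem uniq (hN : NEG) (hD : Ld.DIV) (hT : T.OK) (hq : Sub (d + 1) d q) (h : Cut A σ i)
    (hP : IsLB (d + 1) P) (hC : ∀ (C : Mf 1) (ι : C.X → W.X) (u : U.X)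
      (k : Emb 1 (d + 1) ι (q ⁻¹' {u})), T.Kc C (-T.pull k.hol (T.c1 W P - T.c1 W A)))
    {R : Bd U.X} (hR : IsLB d R) {s : (P.mul (pull q R)).ι → W.X → ℂ}
    (hs : IsSec (d + 1) (P.mul (pull q R)) s)
    (h0 : ∀ a z, i z ∈ (P.mul (pull q R)).U a → s a (i z) = 0) (a : (P.mul (pull q R)).ι)
    (w : W.X) (hw : w ∈ (P.mul (pull q R)).U a) : s a w = 0 := by
  have hA := h.lb
  have hS := lb_mul hP (hq.hol.lb hR)
  have h1 := lb_mul hS (Rh.lb_inv hA)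
  have h2 := lb_mul h1 hA
  have h3 : IsSec (d + 1) (((P.mul (pull q R)).mul (Bd.inv A)).mul A)
      fun b x => s b.1.1 x * A.g b.2 b.1.2 x := by
    refine isSec_of (fun b x k => (sec_hol hs k.1.1).mul (lb_hol hA k.2 k.1.2)) fun b c x k k' => ?_
    have e1 := hA.ne_zero _ _ x k.1.2 k'.1.2
    change _ = (P.mul (pull q R)).g _ _ x * (A.g _ _ x)⁻¹ * A.g _ _ x * _
    have e2 := hA.cocycle _ _ _ x k.2 k.1.2 k'.1.2
    have e3 := hA.cocycle _ _ _ x k.2 k'.2 k'.1.2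
    rw [hs.change _ _ x k.1.1 k'.1.1]
    field_simp
    linear_combination (P.mul (pull q R)).g b.1.1 c.1.1 x * s c.1.1 x * (e2 - e3)
  obtain ⟨t, t1, t2⟩ := (hD h).2 _ _ _ _ (Ld.ml_mul h1 hA) _ (Ld.nm_mem h2 h3) (by
    funext b z
    by_cases k : i z ∈ (((P.mul (pull q R)).mul (Bd.inv A)).mul A).U b
    · exact (Ld.nm_of (L := ((P.mul (pull q R)).mul (Bd.inv A)).mul A)
        (s := fun b x => s b.1.1 x * A.g b.2 b.1.2 x) k).trans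
        (mul_eq_zero_of_left (h0 _ _ k.1.1) _)
    · exact Ld.nm_not (L := ((P.mul (pull q R)).mul (Bd.inv A)).mul A)
        (s := fun b x => s b.1.1 x * A.g b.2 b.1.2 x) k)
  obtain ⟨b, hb⟩ := hA.cover w
  obtain ⟨C, ι, k⟩ := fib_emb (y := q w) rfl hq.hol fun x _ => hq.sbm x
  obtain ⟨c, rfl⟩ := k.ex (show w ∈ q ⁻¹' {q w} from rfl)
  have h4 := hN T hT C _ one_pos (k.hol.lb h1) (by
    have e : T.pull k.hol (T.pull hq.hol (T.c1 U R)) = 0 := by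
      rw [← hT.rg.pull_comp k.hol hq.hol (holM_const _) fun x => (k.fib x).symm]
      exact Ma.pull_const hT _ (j := 0) (hT.c1.deg U R)
    rw [hT.c1.pull k.hol _ h1, hT.c1.mul W _ _ hS (Rh.lb_inv hA), Rh.c1_inv hT hA,
      hT.c1.mul W _ _ hP (hq.hol.lb hR), hT.c1.pull hq.hol _ hR, map_add, map_add, e, add_zero,
      ← map_add, ← sub_eq_add_neg]
    exact hC C ι _ k) _ (k.hol.sec t1.1) (a, b) c ⟨hw, hb⟩
  have hm : ι c ∈ (((P.mul (pull q R)).mul (Bd.inv A)).mul A).U ((a, b), b) := ⟨⟨hw, hb⟩, hb⟩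
  have h5 : t (a, b) (ι c) * σ b (ι c) = s a (ι c) * A.g b b (ι c) :=
    (Ld.tm_of hm).symm.trans ((congrFun (congrFun t2 ((a, b), b)) (ι c)).trans (Ld.nm_of hm))
  have h6 : t (a, b) (ι c) = 0 := h4
  rw [h6, zero_mul, lb_self hA hb, mul_one] at h5
  exact h5.symm

/-- extension from the hypersurface -/
theorem ext (hN : NEG) (hE : Ld.EXT) (hD : Ld.DIV) (hT : T.OK) (hq : Sub (d + 1) d q)
    (h : Cut A σ i) (hP : IsLB (d + 1) P) (hC : ∀ (C : Mf 1) (ι : C.X → W.X) (u : U.X)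
      (k : Emb 1 (d + 1) ι (q ⁻¹' {u})), T.Kc C (-T.pull k.hol (T.c1 W P - T.c1 W A)))
    {N : Bd U.X} (h1 : IsLB d N) (h2 : Bpf d N) (h3 : T.Kc W (T.c1 W P - T.c1 W A +
      T.pull hq.hol (T.c1 U N) - T.c1 W (Bd.can (d + 1) W.X))) {v : P.ι → Z.X → ℂ}
    (hv : IsSec d (pull i P) v) :
    ∃ G, IsSec (d + 1) P G ∧ ∀ a z, i z ∈ P.U a → G a (i z) = v a z := by
  have hi := h.emb.hol
  have hS := lb_mul hP (hq.hol.lb h1)
  have ex : ∀ τ, IsSec d N τ → ∃ F, IsSec (d + 1) (P.mul (pull q N)) F ∧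
      ∀ a c z, i z ∈ P.U a → q (i z) ∈ N.U c → F (a, c) (i z) = v a z * τ c (q (i z)) := by
    intro τ hτ
    have k1 : IsSec d (pull i (P.mul (pull q N))) fun b z => v b.1 z * τ b.2 (q (i z)) := by
      refine isSec_of (fun b z k => (sec_hol hv k.1).mul ((hq.hol.comp hi).hol (sec_hol hτ k.2)))
        fun b c z k k' => ?_
      rw [hv.change _ _ z k.1 k'.1, hτ.change _ _ _ k.2 k'.2]
      exact mul_mul_mul_comm _ _ _ _
    obtain ⟨F, f1, f2⟩ := hE T hT h _ hS (by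
      rw [hT.c1.mul W _ _ hP (hq.hol.lb h1), hT.c1.pull hq.hol _ h1]
      rwa [sub_add_eq_add_sub, sub_right_comm] at h3) _ (Ld.nm_mem (hi.lb hS) k1)
    exact ⟨F, f1.1, fun a c z k k' => (congrFun (congrFun f2 (a, c)) z).trans
      (Ld.nm_of (L := pull i (P.mul (pull q N))) ⟨k, k'⟩)⟩
  choose! F f1 f2 using ex
  have un : ∀ τ τ', IsSec d N τ → IsSec d N τ' → ∀ a c c' w, w ∈ P.U a → q w ∈ N.U c →
      q w ∈ N.U c' → F τ (a, c) w * τ' c' (q w) = F τ' (a, c') w * τ c (q w) := by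
    intro τ τ' k1 k2 a c c' w k3 k4 k5
    refine sub_eq_zero.1 (uniq hN hD hT hq h hP hC (lb_mul h1 h1) (s := fun b x =>
      F τ (b.1, b.2.1) x * τ' b.2.2 (q x) - F τ' (b.1, b.2.2) x * τ b.2.1 (q x))
      (isSec_of (fun b x k => ((sec_hol (f1 τ k1) ⟨k.1, k.2.1⟩).mul
        (hq.hol.hol (sec_hol k2 k.2.2))).sub ((sec_hol (f1 τ' k2) ⟨k.1, k.2.2⟩).mul
          (hq.hol.hol (sec_hol k1 k.2.1)))) fun b b' x k k' => ?_) (fun b z k => ?_)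
      (a, c, c') w ⟨k3, k4, k5⟩)
    · rw [(f1 τ k1).change (b.1, b.2.1) (b'.1, b'.2.1) x ⟨k.1, k.2.1⟩ ⟨k'.1, k'.2.1⟩,
        (f1 τ' k2).change (b.1, b.2.2) (b'.1, b'.2.2) x ⟨k.1, k.2.2⟩ ⟨k'.1, k'.2.2⟩,
        k1.change _ _ _ k.2.1 k'.2.1, k2.change _ _ _ k.2.2 k'.2.2]
      simp only [Bd.mul, pull]
      ring
    · rw [f2 τ k1 _ _ z k.1 k.2.1, f2 τ' k2 _ _ z k.1 k.2.2]
      ring
  choose τ t1 t2 using h2
  choose c hc using h1.cover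
  have t3 : ∀ y, τ y (c y) y ≠ 0 := fun y => t2 y _ (hc y)
  refine ⟨fun a w => F (τ (q w)) (a, c (q w)) w / τ (q w) (c (q w)) (q w),
    isSec_of (fun a w k => ?_) fun a b w k k' => ?_, fun a z k => ?_⟩
  · have k1 := hq.hol.hol (sec_hol (t1 (q w)) (hc (q w)))
    refine ((sec_hol (f1 _ (t1 (q w))) (a := (a, c (q w))) ⟨k, hc _⟩).div k1 (t3 _)).congr ?_
    filter_upwards [lb_near hP k, hq.hol.cont.continuousAt.eventually (lb_near h1 (hc (q w))),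
      k1.ne_near (t3 _)] with x a1 a2 a3
    rw [div_eq_div_iff a3 (t3 _)]
    exact un _ _ (t1 _) (t1 _) a _ _ x a1 a2 (hc _)
  · rw [(f1 _ (t1 (q w))).change (a, c (q w)) (b, c (q w)) w ⟨k, hc _⟩ ⟨k', hc _⟩]
    simp only [Bd.mul, pull, lb_self h1 (hc _), mul_one, mul_div_assoc]
  · exact (div_eq_iff (t3 _)).2 (f2 _ (t1 _) a _ z k (hc _))

end XglH

open XglH in
/-- **row XGL** -/
theorem xgl_of' (hN : NEG) (hE : Ld.EXT) (hD : Ld.DIV) : XGL := by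
  rintro T hT n m V F Z A σ i h M k hM ⟨⟨N, h1, h2, h3⟩, h4⟩ u hu
  have hs : Sub (F.k + 1 + 1) n (E2 F) := ⟨hE2 F, fun w =>
    Sbm.comp (g := F.e) (f := F.Q.q2) (F.se.hol.at _) (F.Q.sub2.hol.at w) (F.se.sbm _)
      (F.Q.sub2.sbm w)⟩
  obtain ⟨Z', i', h'⟩ := cut_pull h hs
  obtain ⟨j, j1, j2⟩ := h.emb.lift (hs.hol.comp h'.emb.hol) h'.emb.mem
  have hD' := F.Q.cut.lb
  have hP : IsLB (F.k + 1 + 1) (M2 F M k) := lb_mul (hs.hol.lb hM) (lb_pow hD' k)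
  have e : c2 F (T.c1 V M - T.c1 V A) k =
      T.c1 F.Q.U2 (M2 F M k) - T.c1 F.Q.U2 (pull (E2 F) A) := by
    rw [c2, M2, hT.c1.mul _ _ _ (hs.hol.lb hM) (lb_pow hD' k), hT.c1.pow _ _ _ hD',
      hT.c1.pull hs.hol _ hM, hT.c1.pull hs.hol _ h.lb, map_sub, sub_add_eq_add_sub]
  rw [e] at h3 h4
  obtain ⟨G, g1, g2⟩ := ext hN hE hD hT F.Q.cart.sf' h' hP h4 h1 h2 h3
    (v := fun b z => F.Q.s b.2 (i' z) ^ k * u b.1 (j z)) (isSec_of (fun b z a =>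
      ((h'.emb.hol.hol (sec_hol F.Q.cut.sec a.2)).pow k).mul
        (j1.hol (sec_hol hu (show i (j z) ∈ M.U b.1 from j2 z ▸ a.1)))) fun b b' z a a' => by
      rw [F.Q.cut.sec.change _ _ _ a.2 a'.2, hu.change _ _ (j z)
        (show i (j z) ∈ M.U b.1 from j2 z ▸ a.1) (show i (j z) ∈ M.U b'.1 from j2 z ▸ a'.1)]
      simp only [M2, Bd.mul, Bd.pow, pull, j2]
      ring)
  refine ⟨G, g1, fun w z a b a1 a2 a3 => ?_⟩
  obtain ⟨z', rfl⟩ := h'.emb.ex (show E2 F w ∈ {y | ¬ NZ A σ y} from a1 ▸ h.emb.mem z)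
  rw [g2 (a, b) z' ⟨show E2 F (i' z') ∈ M.U a from a1 ▸ a2, a3⟩, h.emb.inj ((j2 z').trans a1)]

end Vale.Agent.P280Z.Po
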