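import Vale.Agent.P280Z.Po.Defs
import Vale.Agent.P280Z.Ld.All
import Vale.Agent.P280Z.Ma.Rel
import Vale.Agent.P280Z.Co.Vbl

/-!
# P280Z, block Po, row XPOS: positivity on the fibre square
-/

open scoped Manifold ContDiff Topology Matrix
open Set Filter
open Vale.Agent.P272.K Vale.Agent.P285.H281.FD Vale.Agent.P281Z Vale.Agent.P280Z.Ma
open Vale.Agent.P280Z.Rh (Fm cX)
open Vale.Agent.P277Z (at_chart)

noncomputable section

namespace Vale.Agent.P280Z.Po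

namespace XposH

variable {T : CT}

theorem ample (hT : T.OK) {n : ℕ} {U : Mf n} {L : Bd U.X} (h : IsLB n L) (k : Pos n L) {z : T.H U}
    (h1 : z ∈ T.Ty U) (h2 : T.Dg U 1 z) :
    ∃ N : Bd U.X, IsLB n N ∧ Bpf n N ∧ T.Kc U (T.c1 U N + z) := by
  obtain ⟨a, r, s, a1, hs⟩ := Ld.ld.va U L h k
  have kL := hT.c1.pos U L h k
  obtain ⟨c, -, hc⟩ := hT.po.opn kL z h1 h2
  obtain ⟨j, hj⟩ := exists_nat_ge c
  refine ⟨(L.pow a).pow j, lb_pow hs.lb j, fun x => ?_, ?_⟩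
  · obtain ⟨i, hi⟩ := not_forall.1 fun e => (hs.bpf ▸ (e : x ∈ Ld.Bs (L.pow a) s) : x ∈ (∅ : Set _))
    exact ⟨fun b y => s i b y ^ j, isSec_of (fun _ _ hb => (sec_hol (hs.sec i).1 hb).pow j)
      fun b b' y hb hb' => by
        rw [(hs.sec i).1.change b b' y hb hb', mul_pow]
        rfl, fun b hb => pow_ne_zero _ (not_not.1 hi b hb)⟩
  · have a2 : (1 : ℝ) ≤ a := Nat.one_le_cast.2 a1
    have := kc_add hT hc (Rh.nn_smul hT (Rh.kc_nn hT kL) (c := j * a - c)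
      (by nlinarith [j.cast_nonneg (α := ℝ)]))
    rw [hT.c1.pow U _ j hs.lb, hT.c1.pow U L a h]
    refine (congrArg (T.Kc U) ?_).mp this
    module

variable {n : ℕ} {V : Mf n} (F : Fm T V)

theorem swap (hT : T.OK) {b : T.H F.U} {c : ℝ} (h : T.dem F.sp.hol b = algebraMap ℝ _ c) :
    T.pull F.Q.cart.hg' (b - (c / 2) • T.c1 F.U F.Tb) =
      T.pull F.Q.cart.sf'.hol (b - (c / 2) • T.c1 F.U F.Tb) := by
  have k : T.c1 F.U F.Tb * T.dem F.sp.hol b +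
      T.pull F.sp.hol (T.push F.p (T.c1 F.U F.Tb * b)) = (2 : ℝ) • b := F.ns.lh b
  rw [h, mul_comm, ← Algebra.smul_def] at k
  have e : b - (c / 2) • T.c1 F.U F.Tb =
      T.pull F.sp.hol ((2 : ℝ)⁻¹ • T.push F.p (T.c1 F.U F.Tb * b)) := by
    rw [map_smul]
    linear_combination (norm := module) (-2⁻¹ : ℝ) • k
  rw [e, ← hT.rg.pull_comp F.Q.cart.hg' F.sp.hol (F.sp.hol.comp F.Q.cart.hg') fun _ => rfl,
    ← hT.rg.pull_comp F.Q.cart.sf'.hol F.sp.hol (F.sp.hol.comp F.Q.cart.hg') F.Q.cart.comm]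

theorem cX2 (hT : T.OK) : cX T F.Q.U2 =
    T.pull F.Q.cart.hg' (T.c1 F.U F.Tb) + T.pull F.Q.cart.sf'.hol (cX T F.U) := by
  have hR := rel_of vbl
  obtain ⟨E, hE⟩ := hR.ex F.p 1 F.Q.cart.sf rfl
  obtain ⟨E', hE'⟩ := hR.ex F.Q.q1 1 F.Q.cart.sf' rfl
  have a1 := (hR.ps T hT F.Q.cart.hg hE).2.2 1
  rw [(lha_of hR vbl T hT F.Q F.kU).2.2.1 1, pow_one, add_left_inj] at a1
  rw [cX, (hR.ps T hT F.Q.cart.sf'.hol hE').2.2 1, hR.bc T hT F.Q.cart hE hE' 1, a1]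

end XposH

open XposH in
theorem xpos : XPOS := by
  intro T hT n V F l k h1 h2 h3
  obtain ⟨w, hw⟩ := (hT.po.kah _).1 F.kU
  have hs : Function.Surjective F.p := fun y => (F.fp y).nonempty
  have := F.cU
  obtain ⟨c, c0, hc⟩ := Rh.push_vol hT (d := 1) F.sp rfl hs (hs.connectedSpace F.sp.hol.cont) hw
  have e1 := swap F hT (b := w) (c := c) (by
    rw [← pow_one w]
    exact (congrArg (T.pull F.sp.hol) hc).trans (AlgHom.commutes _ _))
  have e2 := swap F hT ((F.hdg l h1).trans (congrArg _ h3))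
  have e3 := two_delta F.Q hT
  have tτ := hT.tp.c1 F.U _ F.Q.lb
  have dτ := hT.c1.deg F.U F.Tb
  have dw := hT.po.deg hw
  have dl := dg_pull hT F.se.hol h1
  set τ := T.c1 F.U F.Tb
  obtain ⟨z, hz, z1, z2⟩ : ∃ z, z = T.pull F.se.hol l + ((k : ℝ) + 1) • τ - c⁻¹ • w ∧
      z ∈ T.Ty F.U ∧ T.Dg F.U 1 z :=
    ⟨_, rfl, sub_mem (add_mem (hT.tp.pull _ h2) (Subalgebra.smul_mem _ tτ _))
      (Subalgebra.smul_mem _ (Rh.nn_ty hT (Rh.kc_nn hT hw)) _), by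
      unfold CT.Dg at dτ dw dl ⊢
      rw [map_sub, map_add, map_smul, map_smul, dτ, dw, dl]⟩
  have e4 : c2 F l k = -(c⁻¹ • T.pull F.Q.cart.hg' w) +
      T.pull F.Q.cart.sf'.hol (z - τ + (2 * c⁻¹) • w) := by
    rw [c2, hT.rg.pull_comp F.Q.cart.hg' F.se.hol (hE2 F) fun _ => rfl, hz]
    have e5 := congrArg (c⁻¹ • ·) e1
    simp only [map_sub, map_add, map_smul, smul_sub, smul_smul, ← mul_div_assoc,
      inv_mul_cancel₀ c0.ne'] at e2 e5 ⊢
    linear_combination (norm := module) e2 + ((k : ℝ) / 2) • e3 + e5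
  have kw := hT.po.smul _ (inv_pos.2 c0) (hT.po.pull F.Q.cart.hg' hw)
  refine ⟨?_, fun C ι u h => ?_⟩
  · obtain ⟨L, l1, l2⟩ := F.prj
    obtain ⟨N, n1, n2, n3⟩ := ample hT l1 l2 (z := z + cX T F.U)
      (add_mem z1 (Rh.c1_acan hT F.U ▸ hT.tp.c1 _ _ (Rh.lb_inv (Rh.lb_can _)))) (by
        have := Rh.dg_cX hT F.U
        unfold CT.Dg at z2 this ⊢
        rw [map_add, z2, this])
    refine ⟨N, n1, n2, (congrArg (T.Kc F.Q.U2) ?_).mp
      (hT.po.mono (hT.po.add kw (hT.po.pull F.Q.cart.sf'.hol n3))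
        fun x v hv => F.Q.cart.imm x v hv.2 hv.1)⟩
    have e5 := congrArg ((2 * c⁻¹) • ·) e1
    have e6 := (hT.ch.tan F.Q.U2).symm.trans (cX2 F hT)
    rw [e4]
    simp only [map_sub, map_add, map_smul, smul_sub, smul_smul, mul_assoc, ← mul_div_assoc,
      inv_mul_cancel₀ c0.ne'] at e5 ⊢
    linear_combination (norm := module) e5 - e6
  · have k0 : ∀ x, F.Q.q1 (ι x) = u := fun x => h.mem x
    have k1 : T.pull h.hol (T.pull F.Q.cart.sf'.hol (z - τ + (2 * c⁻¹) • w)) = 0 := by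
      rw [← hT.rg.pull_comp h.hol F.Q.cart.sf'.hol (holM_const u) fun x => (k0 x).symm]
      refine pull_const hT u (j := 0) ?_
      unfold CT.Dg at dτ dw z2 ⊢
      rw [zero_add, map_add, map_sub, map_smul, dτ, dw, z2]
    rw [e4, map_add, k1, add_zero, map_neg, neg_neg]
    refine hT.po.mono (hT.po.pull h.hol kw) fun x v hv => h.imm x _ _ (at_chart _) (at_chart _)
      ((F.Q.cart.imm _ _ ?_ hv).trans (map_zero _).symm)
    have := DFunLike.congr_fun (df_comp (F.Q.cart.sf'.hol.at _) (h.hol.at x) (at_chart x)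
      (at_chart _) (at_chart _)) v
    refine this.symm.trans ?_
    unfold df
    simp only [k0]
    simp

end Vale.Agent.P280Z.Po
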