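import Vale.Agent.P280Z.Po.Defs
import Vale.Agent.P280Z.Ld.Iso
import Vale.Agent.P280Z.Ld.Api
import Vale.Agent.P280Z.Gm.Fibi
import Vale.Agent.P280Z.Ma.Nsx
import Vale.Agent.P280Z.Ma.Lha

/-!
# P280Z, block Po: the order of the pole drops (row XRD)
-/

open scoped Manifold ContDiff Topology
open Set Filter
open Vale.Agent.P272.K Vale.Agent.P285.H281.FD Vale.Agent.P281Z
open Vale.Agent.P277.HD (pull)
open Vale.Agent.P280Z.Rh (Fm)

noncomputable section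

namespace Vale.Agent.P280Z.Po

namespace XrdH

theorem freq_ne {C : Mf 1} (c : C.X) : ∃ᶠ c' in 𝓝 c, c' ≠ c := by
  have h := mem_chart_source (Cm 1) c
  have := Module.punctured_nhds_neBot ℂ (Cm 1) (chartAt (Cm 1) c c)
  refine ((chartAt (Cm 1) c).tendsto_symm h).frequently
    (((frequently_nhdsWithin_iff.1 (Eventually.frequently (f := 𝓝[≠] (chartAt (Cm 1) c c))
      (p := fun _ => True) (Eventually.of_forall fun _ => trivial))).and_eventually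
      ((chartAt (Cm 1) c).open_target.mem_nhds ((chartAt (Cm 1) c).map_source h))).mono
      fun t k e => k.1.2 ?_)
  exact ((chartAt (Cm 1) c).right_inv k.2).symm.trans (congrArg _ e)

variable {T : CT} (hT : T.OK) {n : ℕ} {V : Mf n} (F : Fm T V) {M : Bd V.X} (hM : IsLB n M)

include hM

theorem lb (k : ℕ) : IsLB (F.k + 1 + 1) (M2 F M k) :=
  lb_mul ((hE2 F).lb hM) (lb_pow F.Q.cut.lb k)

include hT

/-- the sections vanish on the diagonal -/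
theorem van (hN : NEG) (hm : 0 < F.m) {k : ℕ} {G : (M2 F M (k + 1)).ι → F.Q.U2.X → ℂ}
    (hG : IsSec (F.k + 1 + 1) (M2 F M (k + 1)) G) (a : (M2 F M (k + 1)).ι) (x : F.U.X)
    (ha : F.Q.dg x ∈ (M2 F M (k + 1)).U a) : G a (F.Q.dg x) = 0 := by
  obtain ⟨Z, ι, h⟩ := (Gm.fibi T hT F.e (F.e x) F.dim F.se).1
  obtain ⟨z, rfl⟩ : x ∈ range ι := h.rng ▸ rfl
  have hd := F.Q.cut.emb.hol
  refine hN T hT Z _ hm (h.hol.lb (hd.lb (lb F hM _))) ?_ _ (h.hol.sec (hd.sec hG)) a z ha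
  have h1 : T.pull h.hol (T.pull hd (T.pull (hE2 F) (T.c1 V M))) = 0 := by
    rw [← hT.rg.pull_comp h.hol hd (hd.comp h.hol) fun _ => rfl,
      ← hT.rg.pull_comp (hd.comp h.hol) (hE2 F) (holM_const (F.e (ι z))) fun y => ?_]
    · exact Ma.pull_const hT _ (hT.c1.deg V M)
    · rw [E2, F.Q.h2]
      exact (h.rng.le (mem_range_self y)).symm
  rw [hT.c1.pull h.hol _ (hd.lb (lb F hM _)), hT.c1.pull hd _ (lb F hM _), M2,
    hT.c1.mul _ _ _ ((hE2 F).lb hM) (lb_pow F.Q.cut.lb _), hT.c1.pull (hE2 F) _ hM,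
    hT.c1.pow _ _ _ F.Q.cut.lb, map_add, map_add, h1, zero_add, map_smul, Ma.dg_delta F.Q hT,
    map_smul, ← smul_neg, ← map_neg]
  exact hT.po.smul _ (by positivity) (F.tau Z ι _ h)

end XrdH

open XrdH

/-- row XRD -/
theorem xrd_of (hN : NEG) : XRD := by
  intro T hT n V F M Z i u k hM hm G ⟨hG, H⟩
  have hc := F.Q.cut
  have ml : Ld.Ml (F.k + 1 + 1) (M2 F M (k + 1)) (M2 F M k) F.Q.D id Prod.snd :=
    ⟨lb F hM _, lb F hM _, hc.lb, fun _ _ h => h, fun _ _ h => h.2, fun a b x _ _ => by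
      change _ * F.Q.D.g _ _ x ^ (k + 1) = _ * F.Q.D.g _ _ x ^ k * F.Q.D.g _ _ x
      rw [pow_succ, ← mul_assoc]
      rfl⟩
  obtain ⟨t, t1, t2⟩ := (Ld.div hc).2 _ _ _ _ ml _ (Ld.nm_mem (lb F hM _) hG)
    (funext₂ fun a x => by
      by_cases h : F.Q.dg x ∈ (M2 F M (k + 1)).U a
      · exact (Ld.nm_of h).trans (van hT F hM hN hm hG a x h)
      · exact Ld.nm_not h)
  have key : ∀ w z (a : M.ι) (b : F.Q.D.ι), E2 F w = i z → i z ∈ M.U a → w ∈ F.Q.D.U b →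
      F.Q.s b w ≠ 0 → t (a, b) w = F.Q.s b w ^ k * u a z := fun w z a b h1 h2 h3 h4 => by
    have h5 : w ∈ (M2 F M (k + 1)).U (a, b) := ⟨show E2 F w ∈ M.U a from h1 ▸ h2, h3⟩
    have h6 : t (a, b) w * F.Q.s b w = G (a, b) w :=
      (Ld.tm_of (N := M2 F M k) (φ := id) (ψ := Prod.snd) (σ := F.Q.s) (t := t) h5).symm.trans
        ((congrFun (congrFun t2 (a, b)) w).trans (Ld.nm_of h5))
    rw [H w z a b h1 h2 h3, pow_succ, mul_right_comm] at h6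
    exact mul_right_cancel₀ h4 h6
  refine ⟨t, t1.1, fun w z a b h1 h2 h3 => ?_⟩
  by_cases h4 : F.Q.s b w = 0
  swap
  · exact key w z a b h1 h2 h3 h4
  obtain ⟨C, ι, h⟩ := (Gm.fibi T hT (d := 1) F.Q.q2 (F.Q.q2 w) rfl F.Q.sub2).1
  obtain ⟨c, rfl⟩ : w ∈ range ι := h.rng ▸ rfl
  have h5 : ι c ∈ (M2 F M k).U (a, b) := ⟨show E2 F _ ∈ M.U a from h1 ▸ h2, h3⟩
  have h6 := h.hol.cont.continuousAt (x := c)
  refine tendsto_nhds_unique_of_frequently_eq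
    (ContinuousAt.comp (g := t (a, b)) (sec_hol t1.1 h5).cont h6)
    (((ContinuousAt.comp (g := F.Q.s b) (sec_hol hc.sec h3).cont h6).pow k).mul continuousAt_const)
    (((freq_ne c).and_eventually (h6.eventually (lb_near hc.lb h3))).mono fun c' k' => ?_)
  have h7 : F.Q.q2 (ι c') = F.Q.q2 (ι c) := h.rng.le (mem_range_self c')
  refine key _ z a b (by rw [← h1, E2, E2, h7]) h2 k'.2 fun h8 => k'.1 (h.inj ?_)
  obtain ⟨x, hx⟩ := hc.ex h3 h4
  obtain ⟨y, hy⟩ := hc.ex k'.2 h8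
  rw [← hx, ← hy, F.Q.h2, F.Q.h2] at h7
  rw [← hx, ← hy, h7]

end Vale.Agent.P280Z.Po
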