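import Vale.Agent.P280Z.Po.Top
import Vale.Agent.P280Z.Po.Neg
import Vale.Agent.P280Z.Po.Desc
import Vale.Agent.P280Z.Po.Xpos
import Vale.Agent.P280Z.Po.Xgl
import Vale.Agent.P280Z.Po.Xrd
import Vale.Agent.P280Z.Po.Rlb
import Vale.Agent.P280Z.Po.Vert
import Vale.Agent.P280Z.Po.Etg
import Vale.Agent.P280Z.Po.Nq
import Vale.Agent.P280Z.Po.Nrm
import Vale.Agent.P280Z.Po.Alg
import Vale.Agent.P280Z.Po.Lam
import Vale.Agent.P280Z.Po.Sgn
import Vale.Agent.P280Z.Po.Rfa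
import Vale.Agent.P280Z.Po.Rfb
import Vale.Agent.P280Z.Po.Dim1
import Vale.Agent.P280Z.Po.Trv
import Vale.Agent.P280Z.Rh.Int
import Vale.Agent.P280Z.Ld.All

/-!
# P280Z, block Po: assembly up to the lifting of vector fields
-/

namespace Vale.Agent.P280Z.Po

theorem xt : XT := xt_of desc xpos (xgl_of' neg Ld.ld.ext Ld.ld.div) (xrd_of neg)

theorem pone_of_lift (h : LIFT) : Rh.PONE :=
  pone_of xt rlb h vert etg nq nrm alg lam sgn (dgz_of Rh.int_) rfa rfb dim1 trv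

end Vale.Agent.P280Z.Po
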