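import Vale.Agent.P280Z.Po.Defs
import Vale.Agent.P280Z.Al.Lei

/-!
# P280Z, block Po: the volume changes sign under the reflection
-/

open Vale.Agent.P281Z

noncomputable section

namespace Vale.Agent.P280Z.Po

namespace RfaH
variable {A B : Type} [CommRing A] [Algebra ℝ A] [CommRing B] [Algebra ℝ B] {S : NS A B} {n r : ℕ}

theorem pw (h : S.OK0 n r) (u : B) : ∀ j, (u - S.τ * S.T u) ^ j = u ^ j - S.τ * S.T (u ^ j)
  | 0 => by rw [pow_zero, pow_zero, Al.LeiH.one h, mul_zero, sub_zero]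
  | j + 1 => by
    rw [pow_succ, pw h u j, pow_succ, Al.LeiH.mul h]
    ring

theorem int (h : S.OK0 n r) (b : B) : S.GU.int (b - S.τ * S.T b) = -S.GU.int b := by
  rw [map_sub, ← h.T_int, h.Tτ, two_mul, map_add]
  ring

theorem refl (h : S.OK0 n 0) {l x : A} {c : ℝ} (hl : S.es l = S.τ)
    (hx : S.T (S.es x) = algebraMap ℝ B c) (j : ℕ) :
    S.GX.int ((x - c • l) ^ j) = -S.GX.int (x ^ j) := by
  obtain ⟨D, h0, hD⟩ := h.D
  have e : ∀ a, S.GU.int (S.es a) = D * S.GX.int a := fun a => by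
    rw [← h.el_int, ← one_mul (S.es a), h.proj, ← pow_zero (-S.τ), hD, ← Algebra.smul_def, map_smul,
      smul_eq_mul]
  refine mul_left_cancel₀ h0.ne' ?_
  rw [mul_neg, ← e, ← e, map_pow S.es, map_pow S.es, ← int h, ← pw h, hx, map_sub, map_smul, hl,
    Algebra.smul_def, mul_comm]

end RfaH

theorem rfa : RFA := fun _ _ _ _ F _ x hm hl hx =>
  RfaH.refl (hm ▸ F.ns) hl.2 (F.hdg x hx) _

end Vale.Agent.P280Z.Po
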