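import Vale.Agent.P280Z.Po.Defs

/-!
# P280Z, block Po: the extension theorem and the block from the rows
-/

open scoped Manifold ContDiff Topology Matrix
open Set Filter
open Vale.Agent.P272.K Vale.Agent.P285.H281.FD Vale.Agent.P281Z
open Vale.Agent.P277.HD (pull)
open Vale.Agent.P280Z.Rh
open Vale.Agent.P280Z.Gp (Gen)

noncomputable section

namespace Vale.Agent.P280Z.Po

theorem xt_of (hD : DESC) (hP : XPOS) (hG : XGL) (hR : XRD) : XT := by
  intro T hT n V F l k hl hk m Z A σ i hc M hM hcl u hu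
  subst hcl
  obtain ⟨G, h⟩ := hG T hT F Z A σ i hc M k hM (hP T hT F _ k
    (by rw [CT.Dg, map_sub, hT.c1.deg V M, hT.c1.deg V A])
    (sub_mem (hT.tp.c1 V M hM) (hT.tp.c1 V A hc.lb)) hl) u hu
  obtain ⟨G, h1, h2⟩ : ∃ G, Xt F M i u 0 G := by
    clear hl
    induction k with
    | zero => exact ⟨G, h⟩
    | succ k ih =>
      have hm : 0 < F.m := hk.resolve_left k.succ_ne_zero
      obtain ⟨G', h'⟩ := hR T hT F M _ i u k hM hm G h
      exact ih (Or.inr hm) G' h'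
  choose b hb using fun x => F.Q.cut.lb.cover (F.Q.dg x)
  have e2 : ∀ x, E2 F (F.Q.dg x) = F.e x := fun x => congrArg F.e (F.Q.h2 x)
  have ch : ∀ a a' c c' x, F.e x ∈ M.U a → F.e x ∈ M.U a' → F.Q.dg x ∈ F.Q.D.U c →
      F.Q.dg x ∈ F.Q.D.U c' → G (a, c) (F.Q.dg x) = M.g a a' (F.e x) * G (a', c') (F.Q.dg x) :=
    fun a a' c c' x ha ha' hc hc' => by
      rw [← e2] at ha ha' ⊢
      rw [h1.change (a, c) (a', c') _ ⟨ha, hc⟩ ⟨ha', hc'⟩]
      exact congrArg (· * _) (mul_one _)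
  obtain ⟨s, k1, k2⟩ := hD F.U V F.e M F.se F.fe hM (fun a x => G (a, b x) (F.Q.dg x))
    (isSec_of (fun a x ha => by
      have h3 : F.Q.dg x ∈ (M2 F M 0).U (a, b x) := ⟨(congrArg (· ∈ M.U a) (e2 x)).mpr ha, hb x⟩
      refine (F.Q.cut.emb.hol.hol (sec_hol h1 h3)).congr ?_
      filter_upwards [lb_near (F.se.hol.lb hM) ha, lb_near (F.Q.cut.emb.hol.lb F.Q.cut.lb) (hb x)]
        with y k k'
      rw [ch a a (b x) (b y) y k k k' (hb y), lb_self hM k, one_mul])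
      fun a a' x ha ha' => ch a a' _ _ x ha ha' (hb x) (hb x))
  refine ⟨s, k1, fun a z ha => ?_⟩
  obtain ⟨x, hx⟩ := (F.fe (i z)).nonempty
  have hx' : F.e x = i z := hx
  rw [← hx', k2 a x (hx' ▸ ha), h2 _ z a (b x) ((e2 x).trans hx') ha (hb x), pow_zero, one_mul]

section
variable {T : CT} {n : ℕ} {V : Mf n}

theorem c1_lam (hT : T.OK) {y : ℕ} {Y : Mf y} {π : V.X → Y.X} (h : HolM n y π) :
    T.c1 V (Lam n y π) = cX T V - T.pull h (cX T Y) := by
  rw [Lam, hT.c1.mul V _ _ (lb_inv (lb_can V)) (h.lb (lb_can Y)), c1_acan hT,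
    hT.c1.pull h _ (lb_can Y), show cX T Y = _ from hT.ch.tan Y, map_neg, sub_neg_eq_add]

/-- the relative tangent bundle of the quotient by one family -/
def La (B : Bas T V) (i : B.J) : Bd V.X := Lam n (B.Q {i}).y (B.Q {i}).π

theorem lb_La (B : Bas T V) (i : B.J) : IsLB n (La B i) :=
  lb_mul (lb_inv (lb_can V)) ((B.Q {i}).sub.hol.lb (lb_can _))

theorem two {P : T.H V → ℝ} (hT : T.OK) (hA : RFA) (F : Fm T V) {l : T.H V} (hm : F.m = 0)
    (hl : Rt F l) (hP : ∀ x, P x = T.int V (T.pr V 1 x ^ n)) (x : T.H V) :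
    P (x - (F.dg.comp (T.pr V 1)) x • l) = -P x := by
  rw [hP, hP, map_sub, map_smul, hl.1]
  exact hA T hT F l _ hm hl ((hT.rg.pr_pr V 1 1 x).trans (if_pos rfl))

theorem poly (w h : T.H V) : ∃ p : Polynomial ℝ, ∀ t : ℝ, T.int V ((w + t • h) ^ n) = p.eval t := by
  refine ⟨∑ j ∈ Finset.range (n + 1), Polynomial.monomial (n - j)
    (T.int V (w ^ j * h ^ (n - j) * n.choose j)), fun t => ?_⟩
  rw [add_pow, map_sum, Polynomial.eval_finsetSum]
  refine Finset.sum_congr rfl fun j _ => ?_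
  rw [Polynomial.eval_monomial, smul_pow, mul_smul_comm, smul_mul_assoc, map_smul, smul_eq_mul,
    mul_comm]

end

theorem pone_of (hX : XT) (hB : RLB) (hL : LIFT) (hV : VERT) (hE : ETG) (hQ : NQ) (hN : NRM)
    (hA : ALG) (hM : LAM) (hS : SGN) (hZ : DGZ) (hF : RFA) (hF' : RFB) (hD : DIM1) (hR : TRV) :
    PONE := by
  rintro T ⟨hT, -, -⟩ n V B - ih hV' hJ ⟨i, hi⟩
  obtain ⟨hc, hk⟩ := (fano_iff hT V).1 hV'.1
  have kV : V.Kah := (hT.po.kah V).2 ⟨_, hk⟩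
  have rt : ∀ i, (B.F i).m = 0 → Rt (B.F i) (T.c1 V (La B i)) := fun i hi => by
    rw [La, c1_lam hT (B.Q {i}).sub.hol]
    exact (hM T hT B i hi).2.1
  have sg : ∀ i j, (B.F i).m = 0 → j ≠ i →
      (B.F i).dg (T.c1 V (La B i)) = 2 ∧ (B.F j).dg (T.c1 V (La B i)) ≤ 0 := fun i j hi hj =>
    hS T hT _ _ _ (B.H i) hi (rt i hi) (B.nn i) (by rw [B.dual, if_pos rfl])
      (by rw [B.dual, if_neg hj])
  have gY : ∀ i, (B.F i).m = 0 → Gen _ (B.Q {i}).Y.X := fun i hi =>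
    ih _ (by have := (hM T hT B i hi).1; omega) _ (B.cls _)
  have main : ∀ i j (k : ℕ), (B.F i).m = 0 → j ≠ i →
      (B.F j).dg (T.c1 V (La B i)) = -((k : ℝ) + 1) → (k = 0 ∨ 0 < (B.F j).m) → Gen n V.X := by
    intro i j k hi hj ha hk
    have hn := (hM T hT B i hi).1
    have hs := (B.Q {i}).sub
    have neg : (B.F j).dg (T.c1 V (La B i)) < 0 := by
      rw [ha]
      exact neg_neg_of_pos k.cast_add_one_pos
    obtain ⟨v, hv⟩ := hB V _ _ hs hn
    rcases hV V _ _ hs hn inferInstance (hL T hT V _ _ _ v hn hs ⟨_, lb_inv (lb_can V), hV'.1.2⟩ hv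
      (hX T hT (B.F j) _ k ha hk)) (gY i hi) with h | h | ⟨O, ι, L, s, h1, h2, h3⟩
    · exact h
    · exact absurd (hQ T hT (B.F j) _ hV'.2 (lb_La B i) h) neg.not_ge
    · obtain ⟨k1, k2, k3⟩ := hN T hT V _ O _ hs.hol L s ι kV h1 h2 h3
      rw [← c1_lam hT hs.hol] at k1
      exact (hA T hT (B.F i) (B.F j) _ _ (rt i hi) (hT.c1.deg V L) neg k1 k2 (k3 _) (k3 _)
        fun h => ⟨_, rt j h, (sg j i h hj.symm).2⟩).elim
  have nat : ∀ i j, (B.F j).dg (T.c1 V (La B i)) < 0 →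
      ∃ k : ℕ, (B.F j).dg (T.c1 V (La B i)) = -((k : ℝ) + 1) := fun i j h => by
    obtain ⟨z, hz⟩ := hZ T hT (B.F j) _ (lb_La B i)
    rw [hz] at h ⊢
    obtain ⟨k, rfl⟩ := Int.eq_negSucc_of_lt_zero (Int.cast_lt_zero.1 h)
    exact ⟨k, by rw [Int.cast_negSucc, Nat.cast_succ]⟩
  by_cases h0 : ∀ j, j ≠ i → (B.F j).dg (T.c1 V (La B i)) = 0
  · obtain ⟨hn, -, hp⟩ := hM T hT B i hi
    obtain ⟨j, hj⟩ := exists_ne i
    have e : T.c1 V (La B i) = (2 : ℝ) • B.H i := by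
      rw [B.span _ (hT.c1.deg V _), Finset.sum_eq_single i (fun j _ h => by rw [h0 j h, zero_smul])
        (fun h => (h (Finset.mem_univ i)).elim), (sg i j hi hj).1]
    obtain ⟨d1, n1⟩ := hD T hT B i hJ hn (e ▸ rt i hi)
    obtain ⟨v, hv⟩ := hB V _ _ (B.Q {i}).sub hn
    obtain ⟨w, -, hw⟩ := B.pH i
    obtain ⟨w', hw'⟩ := (hT.po.kah _).1 (B.Q {i}).kah
    refine hE V _ _ (B.Q {i}).π (B.Q {i}ᶜ).π (by omega) (B.Q {i}).sub.hol (B.Q {i}ᶜ).sub.hol
      (hR T hT V _ _ _ _ (B.Q {i}).sub.hol (B.Q {i}ᶜ).sub _ v w' ((2 : ℝ) • w) w hn d1 hc kV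
        (B.Q {i}ᶜ).fib hv (hT.po.deg hw') (by rw [map_smul, ← hw]; exact e)
        (by rw [← hw]; exact (hp w' hw').ne')) (gY i hi) (ih _ (by omega) _ (B.cls _))
  · push Not at h0
    obtain ⟨j, hj, h0⟩ := h0
    have neg := lt_of_le_of_ne (sg i j hi hj).2 h0
    obtain ⟨k, ha⟩ := nat i j neg
    rcases Nat.eq_zero_or_pos (B.F j).m with hm | hm
    · obtain ⟨x⟩ := hc.toNonempty
      have dH := hT.po.deg (B.nn j)
      obtain ⟨k1, k2⟩ := hF' (T.H V) (fun x => T.int V (T.pr V 1 x ^ n))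
        ((B.F i).dg.comp (T.pr V 1)) ((B.F j).dg.comp (T.pr V 1)) (T.c1 V (La B i))
        (T.c1 V (La B j)) (B.H j) (cX T V) (k + 1) (-(B.F i).dg (T.c1 V (La B j)))
        (by simpa only [map_add, map_smul, show T.pr V 1 _ = _ from dH,
          show T.pr V 1 _ = _ from dg_cX hT V] using poly (cX T V) (B.H j))
        (by rw [LinearMap.comp_apply, hT.c1.deg V, (sg i j hi hj).1])
        (by rw [LinearMap.comp_apply, hT.c1.deg V, (sg j i hm hj.symm).1])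
        (by rw [LinearMap.comp_apply, hT.c1.deg V, ha])
        (by rw [LinearMap.comp_apply, hT.c1.deg V, neg_neg])
        (two hT hF _ hi (rt i hi) fun _ => rfl) (two hT hF _ hm (rt j hm) fun _ => rfl)
        (by rw [LinearMap.comp_apply, dH, B.dual, if_neg hj.symm])
        (by rw [LinearMap.comp_apply, dH, B.dual, if_pos rfl])
        (by rw [dg_cX hT V]; exact (Ma.kc_vol hT hk x).ne') k.cast_add_one_pos
        (neg_nonneg.2 (sg j i hm hj.symm).2)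
      obtain ⟨k', ha'⟩ := nat j i (neg_pos.1 k1)
      rw [ha', neg_neg] at k2
      have k3 : (k + 1) * (k' + 1) < 4 := by exact_mod_cast k2
      rcases Nat.eq_zero_or_pos k with h | h
      · exact main i j k hi hj ha (Or.inl h)
      · exact main j i k' hm hj.symm ha' (Or.inl (by nlinarith))
    · exact main i j k hi hj ha (Or.inr hm)

end Vale.Agent.P280Z.Po
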