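import Vale.Agent.P277.H762.CL1
import Mathlib.Analysis.Calculus.VectorField
import Mathlib.Analysis.Analytic.Order

/-!
# P280Z, block Po, row VERT: ideals of germs which are stable under derivations
-/

open scoped Topology ContDiff
open Set Filter Metric VectorField

noncomputable section

namespace Vale.Agent.P280Z.Po.Vt

variable {E : Type} [NormedAddCommGroup E] [NormedSpace ℂ E] {z : E} {S S' : Set (E → ℂ)}
  {h : E → ℂ}

/-- the ideal of germs at `z` generated by `S` -/
inductive Gn (z : E) (S : Set (E → ℂ)) : (E → ℂ) → Prop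
  | gen {h : E → ℂ} : h ∈ S → Gn z S h
  | zero : Gn z S fun _ => 0
  | add {h k : E → ℂ} : Gn z S h → Gn z S k → Gn z S fun w => h w + k w
  | mul {a h : E → ℂ} : AnalyticAt ℂ a z → Gn z S h → Gn z S fun w => a w * h w
  | cng {h k : E → ℂ} : Gn z S h → h =ᶠ[𝓝 z] k → Gn z S k

/-- the derivative along a vector field -/
def D (X : E → E) (h : E → ℂ) (w : E) : ℂ := fderiv ℂ h w (X w)

theorem app {F G : Type} [NormedAddCommGroup F] [NormedSpace ℂ F] [NormedAddCommGroup G]
    [NormedSpace ℂ G] {A : E → F →L[ℂ] G} {X : E → F} (hA : AnalyticAt ℂ A z)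
    (hX : AnalyticAt ℂ X z) : AnalyticAt ℂ (fun w => A w (X w)) z :=
  ((ContinuousLinearMap.id ℂ (F →L[ℂ] G)).analyticAt_bilinear (A z, X z)).comp₂ hA hX

theorem D_an {X : E → E} (hX : AnalyticAt ℂ X z) (hh : AnalyticAt ℂ h z) :
    AnalyticAt ℂ (D X h) z := app hh.fderiv hX

theorem Gn.an (hS : ∀ h ∈ S, AnalyticAt ℂ h z) (k : Gn z S h) : AnalyticAt ℂ h z := by
  induction k with
  | gen m => exact hS _ m
  | zero => exact analyticAt_const
  | add _ _ a b => exact a.add b
  | mul a _ b => exact a.mul b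
  | cng _ e a => exact a.congr e

theorem Gn.val (hS : ∀ h ∈ S, h z = 0) (k : Gn z S h) : h z = 0 := by
  induction k with
  | gen m => exact hS _ m
  | zero => rfl
  | add _ _ a b => simp only [a, b, add_zero]
  | mul _ _ b => simp only [b, mul_zero]
  | cng _ e a => rw [← e.eq_of_nhds, a]

theorem Gn.mono (hS : ∀ h ∈ S, Gn z S' h) (k : Gn z S h) : Gn z S' h := by
  induction k with
  | gen m => exact hS _ m
  | zero => exact .zero
  | add _ _ a b => exact a.add b
  | mul a _ b => exact .mul a b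
  | cng _ e a => exact a.cng e

theorem Gn.sum {α : Type} (s : Finset α) {f : α → E → ℂ} (k : ∀ a, Gn z S (f a)) :
    Gn z S fun w => ∑ a ∈ s, f a w := by
  classical
  induction s using Finset.induction_on with
  | empty => exact .zero
  | insert a s ha ih => exact ((k a).add ih).cng (.of_forall fun w => by simp [ha])

theorem Gn.comp {κ : E → E} (hκ : AnalyticAt ℂ κ z) (h0 : κ z = z) (k : Gn z S h) :
    Gn z ((· ∘ κ) '' S) (h ∘ κ) := by
  induction k with
  | gen m => exact .gen (mem_image_of_mem _ m)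
  | zero => exact .zero
  | add _ _ a b => exact a.add b
  | mul a _ b => exact .mul (a.comp_of_eq hκ h0) b
  | cng _ e a => exact a.cng ((h0 ▸ hκ.continuousAt.tendsto :).eventually e)

theorem Gn.der {X : E → E} (hX : AnalyticAt ℂ X z) (hS : ∀ h ∈ S, AnalyticAt ℂ h z ∧ Gn z S' h ∧
    Gn z S' (D X h)) (k : Gn z S h) : Gn z S' (D X h) := by
  have an := fun h (k : Gn z S h) => k.an fun h m => (hS h m).1
  induction k with
  | gen m => exact (hS _ m).2.2
  | zero => exact Gn.zero.cng (.of_forall fun w => by simp [D])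
  | add p q a b =>
    refine (a.add b).cng ?_
    filter_upwards [(an _ p).eventually_analyticAt, (an _ q).eventually_analyticAt] with w c d
    rw [D, D, D, fderiv_fun_add c.differentiableAt d.differentiableAt]
    rfl
  | mul a p b =>
    refine ((Gn.mul a b).add (.mul (D_an hX a) (p.mono fun h m => (hS h m).2.1))).cng ?_
    filter_upwards [a.eventually_analyticAt, (an _ p).eventually_analyticAt] with w c d
    rw [D, D, D, fderiv_fun_mul c.differentiableAt d.differentiableAt, mul_comm (fderiv ℂ _ _ _)]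
    rfl
  | cng _ e a => exact a.cng ((e.fderiv (𝕜 := ℂ)).mono fun w c =>
      congrArg (fun A : E →L[ℂ] ℂ => A (X w)) c)

/-- an ideal which is stable under all derivatives and vanishes at the point is zero -/
theorem Gn.eq_zero (hS : ∀ h ∈ S, AnalyticAt ℂ h z ∧ h z = 0 ∧ ∀ u, Gn z S (D (fun _ => u) h))
    (k : Gn z S h) : ∀ᶠ w in 𝓝 z, h w = 0 := by
  have an := fun h (k : Gn z S h) => k.an fun h m => (hS h m).1
  have ln : ∀ (u : E) (s : ℂ), AnalyticAt ℂ (fun s : ℂ => z + s • u) s := fun u s =>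
    analyticAt_const.add (analyticAt_id.smul analyticAt_const)
  have key : ∀ (u : E) (N : ℕ) h, Gn z S h → iteratedDeriv N (fun s : ℂ => h (z + s • u)) 0 = 0 :=
    fun u N => by
      induction N with
      | zero => exact fun h k => by simpa using k.val fun h m => (hS h m).2.1
      | succ N ih =>
        intro h k
        rw [iteratedDeriv_succ']
        refine (EventuallyEq.iteratedDeriv_eq N ?_).trans (ih _ (k.der analyticAt_const fun h m =>
          ⟨(hS h m).1, .gen m, (hS h m).2.2 u⟩))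
        have t : Tendsto (fun s : ℂ => z + s • u) (𝓝 0) (𝓝 z) := by
          simpa using (ln u 0).continuousAt.tendsto
        filter_upwards [t.eventually (an h k).eventually_analyticAt] with s c
        simpa [D, Function.comp_def] using (c.differentiableAt.hasFDerivAt.comp_hasDerivAt s
          (((hasDerivAt_id s).smul_const u).const_add z)).deriv
  obtain ⟨r, hr, hb⟩ := Metric.eventually_nhds_iff_ball.1 (an h k).eventually_analyticAt
  filter_upwards [ball_mem_nhds z hr] with w hw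
  have c : Convex ℝ {s : ℂ | z + s • (w - z) ∈ ball z r} := fun s a t b p q c d e => by
    have := convex_ball z r a b c d e
    rwa [smul_add, smul_add, add_add_add_comm, ← add_smul, e, one_smul, ← smul_assoc, ← smul_assoc,
      ← add_smul] at this
  have a : AnalyticOnNhd ℂ (fun s : ℂ => h (z + s • (w - z))) _ := fun s m =>
    (hb _ m).fun_comp (f := fun s : ℂ => z + s • (w - z)) (ln _ s)
  have m0 : (0 : ℂ) ∈ {s : ℂ | z + s • (w - z) ∈ ball z r} := by simpa using hr
  have m1 : (1 : ℂ) ∈ {s : ℂ | z + s • (w - z) ∈ ball z r} := by simpa [dist_eq_norm] using hw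
  simpa using a.eqOn_zero_of_preconnected_of_eventuallyEq_zero c.isPreconnected m0
    (analyticOrderAt_eq_top.1 (ENat.eq_top_iff_forall_ge.2 fun N =>
      (natCast_le_analyticOrderAt_iff_iteratedDeriv_eq_zero (a 0 m0)).2 fun i _ => key _ i h k)) m1

theorem it_an (v : E) (i : ℕ) (hh : AnalyticAt ℂ h z) :
    AnalyticAt ℂ ((D fun _ => v)^[i] h) z := by
  induction i with
  | zero => exact hh
  | succ i ih => rw [Function.iterate_succ_apply']; exact D_an analyticAt_const ih

theorem it_cng (v : E) (i : ℕ) {k : E → ℂ} (e : h =ᶠ[𝓝 z] k) :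
    (D fun _ => v)^[i] h =ᶠ[𝓝 z] (D fun _ => v)^[i] k := by
  induction i with
  | zero => exact e
  | succ i ih =>
    simp only [Function.iterate_succ_apply']
    exact (ih.fderiv (𝕜 := ℂ)).mono fun w c => congrArg (fun A : E →L[ℂ] ℂ => A v) c

/-- the derivatives of a multiple of a power -/
theorem it_pow (v : E) {ψ : E → ℂ} (hψ : AnalyticAt ℂ ψ z) (i : ℕ) : ∀ u, AnalyticAt ℂ u z →
    ∃ (c : ℂ) (r : E → ℂ), c ≠ 0 ∧ ∀ᶠ w in 𝓝 z, (D fun _ => v)^[i] (fun w => ψ w ^ i * u w) w =
      c * D (fun _ => v) ψ w ^ i * u w + ψ w * r w := by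
  induction i with
  | zero => exact fun u _ => ⟨1, 0, one_ne_zero, .of_forall fun w => by simp⟩
  | succ i ih =>
    intro u hu
    obtain ⟨c, r, c0, e⟩ := ih (fun w => (i + 1) * D (fun _ => v) ψ w * u w +
      ψ w * D (fun _ => v) u w) (((analyticAt_const.mul (D_an analyticAt_const hψ)).mul hu).add
        (hψ.mul (D_an analyticAt_const hu)))
    refine ⟨c * (i + 1), fun w => c * D (fun _ => v) ψ w ^ i * D (fun _ => v) u w + r w,
      mul_ne_zero c0 (Nat.cast_add_one_ne_zero i), ?_⟩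
    have e2 : D (fun _ => v) (fun w => ψ w ^ (i + 1) * u w) =ᶠ[𝓝 z] fun w => ψ w ^ i *
        ((i + 1) * D (fun _ => v) ψ w * u w + ψ w * D (fun _ => v) u w) := by
      filter_upwards [hψ.eventually_analyticAt, hu.eventually_analyticAt] with w a b
      rw [D, ((a.differentiableAt.hasFDerivAt.pow (i + 1)).fun_mul
        b.differentiableAt.hasFDerivAt).fderiv]
      simp [D]
      ring
    filter_upwards [e, it_cng v i e2] with w a b
    rw [Function.iterate_succ_apply, b, a]
    ring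

/-- a Lie algebra of vector fields on a ball, a frame `ξ a`, `v` and the dual frame `c a`, `o` -/
structure Fr {α : Type} [Fintype α] (z : E) (r : ℝ) (G : Set (E → E)) (ξ : α → E → E) (v : E)
    (c : α → E → E →L[ℂ] ℂ) (o : E → E →L[ℂ] ℂ) : Prop where
  r0 : 0 < r
  an : ∀ X ∈ G, AnalyticOnNhd ℂ X (ball z r)
  br : ∀ X ∈ G, ∀ Y ∈ G, lieBracket ℂ X Y ∈ G
  mem : ∀ a, ξ a ∈ G
  ca : ∀ a, AnalyticOnNhd ℂ (c a) (ball z r)
  oa : AnalyticOnNhd ℂ o (ball z r)
  fr : ∀ w ∈ ball z r, ∀ u, u = ∑ a, c a w u • ξ a w + o w u • v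
  o0 : ∀ w ∈ ball z r, ∀ a, o w (ξ a w) = 0

namespace Fr

variable {α : Type} [Fintype α] {r : ℝ} {G : Set (E → E)} {ξ : α → E → E} {v : E}
  {c : α → E → E →L[ℂ] ℂ} {o : E → E →L[ℂ] ℂ}

/-- the derivatives of the last coordinates, of order less than `k` -/
def J (G : Set (E → E)) (v : E) (o : E → E →L[ℂ] ℂ) (k : ℕ∞) : Set (E → ℂ) :=
  {h | ∃ i : ℕ, i < k ∧ ∃ X ∈ G, h = (D fun _ => v)^[i] fun w => o w (X w)}

theorem J_an (H : Fr z r G ξ v c o) {k : ℕ∞} : ∀ h ∈ J G v o k, AnalyticAt ℂ h z := by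
  rintro _ ⟨i, -, X, m, rfl⟩
  exact it_an v i (app (H.oa z (mem_ball_self H.r0)) (H.an X m z (mem_ball_self H.r0)))

theorem J_le {k l : ℕ∞} (e : k ≤ l) (p : Gn z (J G v o k) h) : Gn z (J G v o l) h :=
  p.mono fun _ m => m.elim fun i a => .gen ⟨i, a.1.trans_le e, a.2⟩

theorem lin (H : Fr z r G ξ v c o) {w : E} (hw : w ∈ ball z r) (A : E →L[ℂ] ℂ) (u : E) :
    ∑ a, c a w u * A (ξ a w) + o w u * A v = A u := by
  conv_rhs => rw [H.fr w hw u]
  simp

variable [CompleteSpace E]

theorem stab (H : Fr z r G ξ v c o) (i : ℕ) : ∀ X ∈ G, ∀ a,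
    Gn z (J G v o (i + 1)) (D (ξ a) ((D fun _ => v)^[i] fun w => o w (X w))) := by
  have z0 := mem_ball_self (x := z) H.r0
  have zb := ball_mem_nhds z H.r0
  have xa := fun a => H.an _ (H.mem a) z z0
  induction i with
  | zero =>
    intro X m a
    have g : ∀ Y ∈ G, Gn z (J G v o ((0 : ℕ) + 1)) fun w => o w (Y w) := fun Y m =>
      .gen ⟨0, by simp, Y, m, rfl⟩
    have car : ∀ w ∈ ball z r, ∀ Y ∈ G, D (ξ a) (fun w => o w (Y w)) w =
        o w (lieBracket ℂ (ξ a) Y w) + (fderiv ℂ o w (ξ a w) - (fderiv ℂ o w).flip (ξ a w))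
          (Y w) := fun w hw Y m => by
      have e : (fun w => o w (ξ a w)) =ᶠ[𝓝 w] fun _ => 0 :=
        (isOpen_ball.eventually_mem hw).mono fun y k => H.o0 y k a
      have e2 := congrArg (· (Y w)) ((fderiv_clm_apply (H.oa w hw).differentiableAt
        (H.an _ (H.mem a) w hw).differentiableAt).symm.trans e.fderiv_eq)
      rw [D, fderiv_clm_apply (H.oa w hw).differentiableAt (H.an _ m w hw).differentiableAt]
      simp [lieBracket] at e2 ⊢
      linear_combination e2
    have oz := (H.oa z z0).fderiv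
    refine ((g _ (H.br _ (H.mem a) _ m)).add ((Gn.sum Finset.univ fun b => Gn.mul
      (app (H.ca b z z0) (H.an _ m z z0)).neg (g _ (H.br _ (H.mem a) _ (H.mem b)))).add
      (.mul ((app (app oz (xa a)) (analyticAt_const (v := v))).sub (app (app oz
        (analyticAt_const (v := v))) (xa a))) (g X m)))).cng ?_
    filter_upwards [zb] with w hw
    have e : ∀ b, (fderiv ℂ o w (ξ a w) - (fderiv ℂ o w).flip (ξ a w)) (ξ b w) =
        -o w (lieBracket ℂ (ξ a) (ξ b) w) := fun b => by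
      have e : (fun w => o w (ξ b w)) =ᶠ[𝓝 w] fun _ => 0 :=
        (isOpen_ball.eventually_mem hw).mono fun y k => H.o0 y k b
      have := car w hw _ (H.mem b)
      rw [D, e.fderiv_eq] at this
      simp only [fderiv_fun_const, Pi.zero_apply, _root_.zero_apply] at this
      linear_combination -this
    rw [Function.iterate_zero_apply, car w hw X m, ← H.lin hw (_ - _) (X w)]
    simp only [e, mul_comm (o w (X w))]
    simp
  | succ i ih =>
    intro X m a
    have hm : ((D fun _ => v)^[i] fun w => o w (X w)) ∈ J G v o (i + 1) :=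
      ⟨i, by exact_mod_cast i.lt_succ_self, X, m, rfl⟩
    have le : ((i : ℕ∞) + 1) ≤ (i + 1 : ℕ) + 1 := by exact_mod_cast (i + 1).le_succ
    have up : ∀ h ∈ J G v o (i + 1), Gn z (J G v o ((i + 1 : ℕ) + 1)) (D (fun _ => v) h) := by
      rintro _ ⟨j, a, Y, b, rfl⟩
      exact .gen ⟨j + 1, by norm_cast at a ⊢; omega, Y, b,
        (Function.iterate_succ_apply' _ _ _).symm⟩
    have ba : AnalyticAt ℂ (lieBracket ℂ (ξ a) fun _ => v) z :=
      (app (analyticAt_const (v := v)).fderiv (xa a)).sub (app (xa a).fderiv analyticAt_const)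
    rw [Function.iterate_succ_apply']
    refine (((ih X m a).der analyticAt_const fun h k => ⟨H.J_an h k, J_le le (.gen k), up h k⟩).add
      ((Gn.sum Finset.univ fun b => Gn.mul (app (H.ca b z z0) ba) (J_le le (ih X m b))).add
      (.mul (app (H.oa z z0) ba) (up _ hm)))).cng ?_
    filter_upwards [zb, (H.J_an _ hm).eventually_analyticAt] with w hw k
    have := fderiv_apply_lieBracket (n := ω) k.contDiffAt (by simp)
      (differentiableAt_const v) (H.an _ (H.mem a) w hw).differentiableAt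
    rw [← H.lin hw] at this
    exact (eq_sub_iff_add_eq'.1 this)

theorem stab' (H : Fr z r G ξ v c o) {k : ℕ∞} (a : α) (m : h ∈ J G v o k) :
    Gn z (J G v o k) (D (ξ a) h) := by
  obtain ⟨i, p, X, m, rfl⟩ := m
  exact J_le (Order.add_one_le_of_lt p) (H.stab i X m a)

/-- **the local structure of the set where the fields do not span** -/
theorem loc [FiniteDimensional ℂ E] {N : ℕ} (hm : Module.finrank ℂ E = N + 1)
    (H : Fr z r G ξ v c o) (h0 : ∀ X ∈ G, o z (X z) = 0) :
    (∀ w ∈ ball z r, ∀ X ∈ G, o w (X w) = 0) ∨ ∃ ψ : E → ℂ, AnalyticAt ℂ ψ z ∧ fderiv ℂ ψ z v ≠ 0 ∧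
      ∀ᶠ w in 𝓝 z, (ψ w = 0 ↔ ∀ X ∈ G, o w (X w) = 0) := by
  have z0 := mem_ball_self (x := z) H.r0
  have zb := ball_mem_nhds z H.r0
  have oX : ∀ X ∈ G, AnalyticOnNhd ℂ (fun w => o w (X w)) (ball z r) := fun X m w hw =>
    app (H.oa w hw) (H.an X m w hw)
  by_cases hall : ∃ i, ∃ X ∈ G, ((D fun _ => v)^[i] fun w => o w (X w)) z ≠ 0
  swap
  · push Not at hall
    refine .inl fun w hw X m => (oX X m).eqOn_zero_of_preconnected_of_eventuallyEq_zero
      (convex_ball z r).isPreconnected z0 (Gn.eq_zero (S := J G v o ⊤) (fun h k => ⟨H.J_an h k, ?_,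
        fun u => ?_⟩) (.gen ⟨0, by simp, X, m, rfl⟩)) hw
    · obtain ⟨i, -, Y, b, rfl⟩ := k
      exact hall i Y b
    · refine ((Gn.sum Finset.univ fun b => Gn.mul (app (H.ca b z z0) (analyticAt_const (v := u)))
        (H.stab' b k)).add (.mul (h := D (fun _ => v) h) (app (H.oa z z0)
          (analyticAt_const (v := u))) ?_)).cng (mem_of_superset zb fun w hw => H.lin hw _ u)
      obtain ⟨i, -, Y, b, rfl⟩ := k
      exact .gen ⟨i + 1, by simp, Y, b, (Function.iterate_succ_apply' _ _ _).symm⟩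
  classical
  obtain ⟨X₀, m₀, k0⟩ := Nat.find_spec hall
  have k1 : ∀ h ∈ J G v o (Nat.find hall), h z = 0 := by
    rintro _ ⟨i, a, Y, b, rfl⟩
    exact not_not.1 fun e => Nat.find_min hall (by exact_mod_cast a) ⟨Y, b, e⟩
  obtain ⟨j, hj⟩ : ∃ j, Nat.find hall = j + 1 :=
    Nat.exists_eq_succ_of_ne_zero fun e => k0 (by rw [e]; exact h0 X₀ m₀)
  rw [hj] at k0 k1
  have pm : ((D fun _ => v)^[j] fun w => o w (X₀ w)) ∈ J G v o (j + 1 : ℕ) :=
    ⟨j, by exact_mod_cast j.lt_succ_self, X₀, m₀, rfl⟩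
  have k2 := k0
  rw [Function.iterate_succ_apply'] at k2
  generalize ((D fun _ => v)^[j] fun w => o w (X₀ w)) = ψ at pm k2
  have pa := H.J_an ψ pm
  have p0 : fderiv ℂ ψ z ≠ 0 := fun e => k2 (by simp [D, e])
  obtain ⟨e, e1, e2, e3, e4⟩ := P277.H762.exists_straight hm pa p0
  have ez : (0, (e z).2) = e z := Prod.ext (by rw [e4, k1 ψ pm]) rfl
  have pr : AnalyticAt ℂ (fun w => ((0 : ℂ), (e w).2)) z :=
    analyticAt_const.prod (analyticAt_snd.comp (e2 z e1))
  obtain ⟨κ, hκ⟩ : ∃ κ : E → E, κ = fun w => e.symm (0, (e w).2) := ⟨_, rfl⟩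
  have κ0 : κ z = z := by rw [hκ]; exact (congrArg e.symm ez).trans (e.left_inv e1)
  have κa : AnalyticAt ℂ κ z := by
    rw [hκ]
    exact (e3 _ (e.map_source e1)).comp_of_eq pr ez
  have κt : Tendsto κ (𝓝 z) (𝓝 z) := (κ0 ▸ κa.continuousAt.tendsto :)
  have κ1 : ψ ∘ κ =ᶠ[𝓝 z] fun _ => 0 := by
    filter_upwards [pr.continuousAt.eventually (e.open_target.mem_nhds
      ((congrArg (· ∈ e.target) ez).mpr (e.map_source e1)))] with w a
    rw [hκ, Function.comp, ← e4, e.right_inv a]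
  have κ2 : ∀ w ∈ e.source, ψ w = 0 → κ w = w := fun w a b => by
    rw [hκ]
    exact (congrArg e.symm (show (0, (e w).2) = e w from Prod.ext (by rw [e4, b]) rfl)).trans
      (e.left_inv a)
  have ch : ∀ u, ∀ h ∈ J G v o (j + 1 : ℕ), ∀ᶠ w in 𝓝 z, D (fun _ => u) (h ∘ κ) w =
      ∑ a, c a (κ w) (fderiv ℂ κ w u) * D (ξ a) h (κ w) +
        o (κ w) (fderiv ℂ κ w u) * D (fun _ => v) h (κ w) := fun u h k => by
    filter_upwards [κt.eventually zb, κt.eventually (H.J_an h k).eventually_analyticAt,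
      κa.eventually_analyticAt] with w a b d
    rw [D, fderiv_comp w b.differentiableAt d.differentiableAt]
    exact (H.lin a (fderiv ℂ h (κ w)) (fderiv ℂ κ w u)).symm
  have key : ∀ h ∈ J G v o (j + 1 : ℕ), ∀ᶠ w in 𝓝 z, h (κ w) = 0 := fun h k => by
    refine Gn.eq_zero (S := (· ∘ κ) '' J G v o (j + 1 : ℕ)) ?_ (.gen (mem_image_of_mem _ k))
    rintro _ ⟨h, k, rfl⟩
    refine ⟨(H.J_an h k).comp_of_eq κa κ0, (congrArg h κ0).trans (k1 h k), fun u => ?_⟩
    have g : ∀ h ∈ J G v o (j + 1 : ℕ), Gn z ((· ∘ κ) '' J G v o (j + 1 : ℕ)) fun w =>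
        ∑ a, c a (κ w) (fderiv ℂ κ w u) * D (ξ a) h (κ w) := fun h k =>
      Gn.sum _ fun a => .mul (app ((H.ca a z z0).comp_of_eq κa κ0) (app κa.fderiv analyticAt_const))
        ((H.stab' a k).comp κa κ0)
    have dv := fun h (k : h ∈ J G v o (j + 1 : ℕ)) =>
      (D_an (analyticAt_const (v := v)) (H.J_an h k)).comp_of_eq κa κ0
    have n0 : D (fun _ => v) ψ (κ z) ≠ 0 := by rwa [κ0]
    refine ((g h k).add (.mul ((dv h k).neg.div (dv ψ pm) n0) (g ψ pm))).cng ?_
    filter_upwards [ch u h k, ch u ψ pm, κ1.fderiv (𝕜 := ℂ),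
      (dv ψ pm).continuousAt.eventually_ne n0] with w a b d f
    rw [D, d] at b
    simp only [fderiv_fun_const, Pi.zero_apply, _root_.zero_apply, Function.comp,
      Pi.div_apply, Pi.neg_apply] at b f ⊢
    rw [a, ← neg_eq_iff_eq_neg.2 (eq_neg_of_add_eq_zero_right b.symm)]
    field_simp
  have dv : ∀ i ≤ j + 1, ∃ u, AnalyticAt ℂ u z ∧ ∀ᶠ w in 𝓝 z, o w (X₀ w) = ψ w ^ i * u w := by
    intro i hi
    induction i with
    | zero => exact ⟨_, oX _ m₀ z z0, .of_forall fun w => by simp⟩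
    | succ i ih =>
      obtain ⟨u, u1, u2⟩ := ih (by omega)
      obtain ⟨d, s, d0, s1⟩ := it_pow v pa i u u1
      obtain ⟨u', a, b⟩ := P277.H762.exists_div hm pa p0 (k1 ψ pm) u1 (by
        filter_upwards [s1, it_cng v i u2, key _ ⟨i, by exact_mod_cast hi, X₀, m₀, rfl⟩,
          e.open_source.mem_nhds e1, (D_an analyticAt_const pa).continuousAt.eventually_ne k2]
          with w a b d f g p
        rw [κ2 w f p, b, a, p, zero_mul, add_zero] at d
        exact (mul_eq_zero.1 d).resolve_left (mul_ne_zero d0 (pow_ne_zero _ g)))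
      exact ⟨u', a, by filter_upwards [u2, b] with w p q using by rw [p, q, pow_succ, mul_assoc]⟩
  obtain ⟨u, u1, u2⟩ := dv _ le_rfl
  obtain ⟨d, s, -, s1⟩ := it_pow v pa (j + 1) u u1
  have u0 : u z ≠ 0 := fun p => k0 (by
    rw [(it_cng v _ u2).eq_of_nhds, s1.self_of_nhds, p, k1 ψ pm, mul_zero, zero_mul, add_zero])
  obtain ⟨ε, ε0, hε⟩ := Metric.eventually_nhds_iff_ball.1
    ((κt.eventually zb).and κa.eventually_analyticAt)
  refine .inr ⟨ψ, pa, k2, ?_⟩
  filter_upwards [u2, u1.continuousAt.eventually_ne u0, ball_mem_nhds z ε0,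
    e.open_source.mem_nhds e1] with w a b d f
  refine ⟨fun p X m => ?_, fun p => pow_eq_zero_iff (j.succ_ne_zero) |>.1
    ((mul_eq_zero.1 (a.symm.trans (p _ m₀))).resolve_right b)⟩
  have := AnalyticOnNhd.eqOn_zero_of_preconnected_of_eventuallyEq_zero (𝕜 := ℂ)
    (f := fun w => o (κ w) (X (κ w))) (fun y q => (oX X m _ (hε y q).1).comp (hε y q).2)
    (convex_ball z ε).isPreconnected (mem_ball_self ε0) (key _ ⟨0, by simp, X, m, rfl⟩) d
  simpa only [κ2 w f p, Pi.zero_apply] using this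

end Fr

end Vale.Agent.P280Z.Po.Vt
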